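import Vale.Agent.P028X.Group

/-! P028M module STATE: two levels `t ≪ s` in a slice `log q ≤ H`. Large cofactors off the mode gain a power
of `e^s`; a large divisor of the mode gains by the Rankin bound, as the mode has few large primes. -/

namespace Vale.Agent.P028M

open Finset Vale.Agent.P028 Vale.Agent.P028X

/-- The weight of a pair of levels. -/
noncomputable def wgt (κ H s : ℝ) : ℝ := Real.exp (-κ * s / Real.log H) + H ^ (-(1 / 8) : ℝ)

lemma log_one {H : ℝ} (hH : 3 ≤ H) : 1 ≤ Real.log H := by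
  rw [Real.le_log_iff_exp_le (by linarith)]
  linarith [Real.exp_one_lt_d9]

lemma wgt_pos {κ H s : ℝ} (hH : 3 ≤ H) : 0 < wgt κ H s :=
  add_pos (Real.exp_pos _) (Real.rpow_pos_of_pos (by linarith) _)

lemma exp_le_wgt {κ c H s : ℝ} (hH : 3 ≤ H) (hs : 0 ≤ s) (hκ : 0 ≤ κ) (hc : κ ≤ c) :
    Real.exp (-(c * s)) ≤ wgt κ H s := by
  refine le_trans (Real.exp_le_exp.2 ?_) (le_add_of_nonneg_right (by positivity))
  have h1 := log_one hH
  rw [neg_mul, neg_div, neg_le_neg_iff, div_le_iff₀ (by linarith)]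
  have := mul_le_mul_of_nonneg_right hc hs
  exact this.trans (le_mul_of_one_le_right (by nlinarith) h1)

lemma card_pf_le (n : ℕ) : (n.primeFactors.card : ℝ) ≤ 2 * Real.log n := by
  rcases Nat.eq_zero_or_pos n with h | h
  · subst h; simp
  have h1 : 2 ^ n.primeFactors.card ≤ n := by
    calc 2 ^ n.primeFactors.card = ∏ _p ∈ n.primeFactors, 2 := by simp
      _ ≤ ∏ p ∈ n.primeFactors, p :=
          Finset.prod_le_prod' fun p hp => (Nat.prime_of_mem_primeFactors hp).two_le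
      _ ≤ n := Nat.le_of_dvd h (Nat.prod_primeFactors_dvd n)
  have h2 : (n.primeFactors.card : ℝ) * Real.log 2 ≤ Real.log n := by
    rw [← Real.log_pow]
    exact Real.log_le_log (by positivity) (by exact_mod_cast h1)
  have := mul_le_mul_of_nonneg_left (show (1 / 2 : ℝ) ≤ Real.log 2 by linarith [Real.log_two_gt_d9])
    (Nat.cast_nonneg (α := ℝ) n.primeFactors.card)
  linarith

/-- The primes of the mode divide `q` or the cofactor `v`. -/
lemma mode_pf {P V W : Finset ℕ} {k : ℕ → ℕ} {c d q r : ℕ} (hP : ∀ p ∈ P, p.Prime)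
    (hst : IsState P V W c d) (hq : q ∈ V) (hr : r ∈ W) (hq0 : 0 < q) (hr0 : 0 < r)
    (hg : GoodPair P k q r) :
    (nMode P k).primeFactors ⊆ q.primeFactors ∪ (vv q r).primeFactors := by
  intro p hp
  obtain ⟨-, hv⟩ := uu_eq P k V W c d q r hP hst hq hr hq0 hr0 hg
  rw [← Nat.support_factorization, Finsupp.mem_support_iff, nMode, fac_prod_pow P hP] at hp
  by_cases hpP : p ∈ P
  swap
  · simp [hpP] at hp
  rw [if_pos hpP] at hp
  by_cases hqp : q.factorization p = 0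
  · refine mem_union_right _ (Nat.primeFactors_mono (hv ▸ dvd_mul_left (bPart P k q) _)
      (vv_pos q r hr0).ne' ?_)
    rw [← Nat.support_factorization, Finsupp.mem_support_iff, bPart, fac_prod_pow P hP, if_pos hpP]
    omega
  · refine mem_union_left _ ?_
    rw [← Nat.support_factorization, Finsupp.mem_support_iff]
    exact hqp

/-- A random divisor of a mode with `O(H)` primes is rarely as large as `e^(s/4)`. -/
lemma rho_tail :
    ∃ C κ : ℝ, 0 ≤ C ∧ 0 < κ ∧ ∀ (N : ℕ) (H s : ℝ), 0 < N → 3 ≤ H → 0 < s →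
      (N.primeFactors.card : ℝ) ≤ 14 * H →
      ∑ b ∈ N.divisors, rhoN N b * bb (Real.exp (s / 4) ≤ (b : ℝ))
        ≤ C * (Real.exp (-κ * s / Real.log H) + 1 / H) := by
  classical
  obtain ⟨C1, c, hc, h1⟩ := rho_smooth_le
  obtain ⟨C2, hC2, h2⟩ := rho_dvd_rpow
  refine ⟨max C1 0 + 14 * C2, c / 15, by positivity, by positivity,
    fun N H s hN hH hs hcard => ?_⟩
  have hlog := log_one hH
  set z := H ^ (3 : ℕ) with hz
  set sm := N.divisors.filter (fun b : ℕ => Real.exp (s / 5) < (b : ℝ) ∧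
    ∀ p ∈ b.primeFactors, (p : ℝ) < z) with hsm
  set big := N.primeFactors.filter (fun p : ℕ => z ≤ (p : ℝ)) with hbig
  have hpt : ∀ b ∈ N.divisors, rhoN N b * bb (Real.exp (s / 4) ≤ (b : ℝ))
      ≤ (if b ∈ sm then rhoN N b else 0) + ∑ p ∈ big, if p ∣ b then rhoN N b else 0 := by
    intro b hb
    have h0 := rhoN_nonneg N b
    have hs0 : 0 ≤ ∑ p ∈ big, if p ∣ b then rhoN N b else 0 :=
      sum_nonneg fun p _ => by split_ifs <;> simp [h0]
    unfold bb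
    split_ifs with hX hbm
    · rw [mul_one]; exact le_add_of_nonneg_right hs0
    · rw [mul_one, zero_add]
      have hlt : Real.exp (s / 5) < (b : ℝ) :=
        lt_of_lt_of_le (Real.exp_lt_exp.2 (by linarith)) hX
      obtain ⟨p, hp, hpz⟩ : ∃ p ∈ b.primeFactors, z ≤ (p : ℝ) := by
        by_contra hne
        push Not at hne
        exact hbm (mem_filter.2 ⟨hb, hlt, hne⟩)
      have hpN : p ∈ big := mem_filter.2
        ⟨Nat.primeFactors_mono (Nat.dvd_of_mem_divisors hb) hN.ne' hp, hpz⟩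
      refine le_trans ?_ (single_le_sum (fun p _ => by split_ifs <;> simp [h0]) hpN)
      rw [if_pos (Nat.dvd_of_mem_primeFactors hp)]
    · simpa using add_nonneg h0 hs0
    · simpa using hs0
  refine (sum_le_sum hpt).trans ?_
  rw [sum_add_distrib, sum_comm, ← sum_filter,
    show N.divisors.filter (· ∈ sm) = sm from filter_mem_eq_inter.trans
      (inter_eq_right.2 (filter_subset _ _))]
  have e1 : ∑ b ∈ sm, rhoN N b ≤ max C1 0 * Real.exp (-(c / 15) * s / Real.log H) := by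
    refine (h1 N z (Real.exp (s / 5)) hN ?_ (Real.one_le_exp (by linarith))).trans ?_
    · calc (2 : ℝ) ≤ H := by linarith
        _ ≤ _ := le_self_pow₀ (by linarith) (by norm_num)
    refine (mul_le_mul_of_nonneg_right (le_max_left _ 0) (Real.exp_pos _).le).trans (le_of_eq ?_)
    rw [Real.log_exp, hz, Real.log_pow]
    congr 2
    push_cast
    field_simp
    ring
  have e2 : ∑ p ∈ big, ∑ b ∈ N.divisors, (if p ∣ b then rhoN N b else 0) ≤ 14 * C2 * (1 / H) := by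
    have hp' : ∀ p ∈ big, ∑ b ∈ N.divisors, (if p ∣ b then rhoN N b else 0) ≤ C2 * (1 / H ^ 2) := by
      intro p hp
      obtain ⟨hpN, hpz⟩ := mem_filter.1 hp
      rw [← sum_filter]
      refine (h2 N p hN (Nat.pos_of_mem_primeFactors hpN)).trans
        (mul_le_mul_of_nonneg_left ?_ hC2.le)
      refine (Real.rpow_le_rpow_of_nonpos (by positivity) hpz (by norm_num)).trans ?_
      rw [hz, one_div (H ^ 2), ← Real.rpow_natCast, ← Real.rpow_natCast H 2,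
        ← Real.rpow_mul (by linarith), ← Real.rpow_neg (by linarith)]
      exact Real.rpow_le_rpow_of_exponent_le (by linarith) (by norm_num)
    refine (sum_le_card_nsmul _ _ _ hp').trans ?_
    rw [nsmul_eq_mul]
    calc (big.card : ℝ) * (C2 * (1 / H ^ 2)) ≤ 14 * H * (C2 * (1 / H ^ 2)) := by
          refine mul_le_mul_of_nonneg_right (le_trans ?_ hcard) (by positivity)
          exact_mod_cast card_filter_le _ _
      _ = _ := by field_simp
  refine (add_le_add e1 e2).trans ?_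
  have := Real.exp_pos (-(c / 15) * s / Real.log H)
  have hH' : 0 ≤ 1 / H := by positivity
  have := mul_nonneg (le_max_right C1 0) hH'
  have := mul_nonneg hC2.le this
  nlinarith

/-- Three bounds combined by exponents with sum one. -/
lemma three_bounds {E A B D α β γ : ℝ} (hE : 0 ≤ E) (hA : E ≤ A) (hB : E ≤ B) (hD : E ≤ D)
    (hα : 0 ≤ α) (hβ : 0 ≤ β) (hγ : 0 ≤ γ) (h1 : α + β + γ = 1) :
    E ≤ A ^ α * B ^ β * D ^ γ := by
  calc E = E ^ α * E ^ β * E ^ γ := by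
        rw [← Real.rpow_add_of_nonneg hE hα hβ, ← Real.rpow_add_of_nonneg hE (add_nonneg hα hβ) hγ, h1,
          Real.rpow_one]
    _ ≤ _ := by
        have := hE.trans hA
        have := hE.trans hB
        gcongr

/-- The class between two given levels. -/
noncomputable def GX (ψ : ℕ → ℝ) (y1 y2 : ℝ) (V0 W0 : Finset ℕ) (q r : ℕ) : ℝ :=
  bb (q ∈ V0 ∧ r ∈ W0) * clsI ψ y1 y2 q r

lemma GX_mem (ψ : ℕ → ℝ) (y1 y2 : ℝ) (V0 W0 : Finset ℕ) (q r : ℕ) :
    0 ≤ GX ψ y1 y2 V0 W0 q r ∧ GX ψ y1 y2 V0 W0 q r ≤ clsI ψ y1 y2 q r :=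
  ⟨mul_nonneg (bb_nonneg _) (cls_mem ψ y1 y2 q r).1,
    mul_le_of_le_one_left (cls_mem ψ y1 y2 q r).1 (bb_le_one _)⟩

lemma good_mem {P : Finset ℕ} {k : ℕ → ℕ} {G : ℕ → ℕ → ℝ} (hG : ∀ q r, 0 ≤ G q r ∧ G q r ≤ 1)
    (q r : ℕ) : 0 ≤ goodG P k G q r ∧ goodG P k G q r ≤ 1 := by
  unfold goodG
  split_ifs
  · exact hG q r
  · norm_num

/-- The cofactor `a` of the coarse side is large: a bound by the total mass alone. -/
lemma side_a :
    ∃ C : ℝ, 0 ≤ C ∧ ∀ (ψ : ℕ → ℝ) (P V W : Finset ℕ) (k : ℕ → ℕ) (c d : ℕ) (y1 y2 t s : ℝ)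
      (G : ℕ → ℕ → ℝ), (∀ q, 0 ≤ ψ q) → (∀ p ∈ P, p.Prime) → (∀ q ∈ V, 0 < q ∧ 0 < ψ q) →
      (∀ r ∈ W, 0 < r ∧ 0 < ψ r) → IsState P V W c d → 0 < c → 0 < d → 0 < y1 → 0 < y2 →
      y1 ≤ 4 → y2 ≤ 4 → 16 * t ≤ s → (∀ q r, 0 ≤ G q r ∧ G q r ≤ 1) →
      (∀ q ∈ V, ∀ r ∈ W, GoodPair P k q r → G q r ≠ 0 →
        InCls ψ y1 y2 q r ∧ Real.exp (-(2 * t)) ≤ ψ q ∧ Real.exp (s / 4) ≤ (aPart P k q : ℝ)) →
      pairSum (mu ψ) (goodG P k G) V W ≤ C * Real.exp (-(s / 8)) * msum (mu ψ) V := by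
  classical
  obtain ⟨Cρ, hCρ, hρ⟩ := rho_total
  refine ⟨16 * Cρ, by positivity,
    fun ψ P V W k c d y1 y2 t s G hψ hP hV hW hst hc hd hy1 hy2 h14 h24 hts hG hsupp => ?_⟩
  set R : ℕ → ℕ → Prop := fun q r => GoodPair P k q r ∧ G q r ≠ 0 with hR
  have hμ := mu_nonneg' hψ
  have hcls : ∀ q ∈ V, ∀ r ∈ W, R q r →
      y1 / 2 < ((d * aPart P k r * bPart P k q : ℕ) : ℝ) * ψ q ∧
      ((d * aPart P k r * bPart P k q : ℕ) : ℝ) * ψ q ≤ y1 ∧
      ((c * aPart P k q * bPart P k r : ℕ) : ℝ) * ψ r ≤ y2 := by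
    intro q hq r hr h
    obtain ⟨hu, hv⟩ := uu_eq P k V W c d q r hP hst hq hr (hV q hq).1 (hW r hr).1 h.1
    obtain ⟨h1, -⟩ := hsupp q hq r hr h.1 h.2
    unfold InCls at h1
    rw [hu, hv] at h1
    exact ⟨h1.1.1, h1.1.2, h1.2.2⟩
  have hside := schur_side ψ P V W k c d y1 y2 R (fun _ _ _ => 1) Cρ hψ hP hV hW hst.2.1 hy1 hy2
    hc hd (fun _ _ _ => zero_le_one) hcls (fun q hq => side_one (by
      have := (hV q hq).2
      have : (0 : ℝ) < bPart P k q := by exact_mod_cast prod_pow_pos P hP _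
      positivity) (hρ _ (prod_pow_pos P hP k)))
  have hM : 0 ≤ msum (mu ψ) V := sum_nonneg fun q _ => hμ q
  have hc1 : y2 / c ≤ 4 := (div_le_self hy2.le (by exact_mod_cast hc)).trans h24
  have hside' := hside.trans
    (mul_le_mul_of_nonneg_right (mul_le_mul_of_nonneg_right hc1 hCρ.le) hM)
  have hpt : ∀ q ∈ V, ∀ r ∈ W, mu ψ q * mu ψ r * goodG P k G q r
      ≤ 4 * Real.exp (-(s / 8)) * (if R q r then mu ψ q * mu ψ r * ((1 : ℝ) ^ 2 *
        ((aPart P k q : ℝ) * bPart P k q * d * ψ q / y1)) else 0) := by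
    intro q hq r hr
    have hμμ : 0 ≤ mu ψ q * mu ψ r := mul_nonneg (hμ q) (hμ r)
    by_cases hRqr : R q r
    swap
    · have h0 : goodG P k G q r = 0 := by
        unfold goodG
        split_ifs with hg
        · exact not_not.1 fun h => hRqr ⟨hg, h⟩
        · rfl
      rw [h0, if_neg hRqr]
      simp
    rw [if_pos hRqr, show 4 * Real.exp (-(s / 8)) * (mu ψ q * mu ψ r * ((1 : ℝ) ^ 2 *
        ((aPart P k q : ℝ) * bPart P k q * d * ψ q / y1))) = mu ψ q * mu ψ r * (4 * Real.exp (-(s / 8))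
        * ((1 : ℝ) ^ 2 * ((aPart P k q : ℝ) * bPart P k q * d * ψ q / y1))) by ring]
    refine mul_le_mul_of_nonneg_left ((good_mem hG q r).2.trans ?_) hμμ
    obtain ⟨-, hψt, ha⟩ := hsupp q hq r hr hRqr.1 hRqr.2
    have hb : (1 : ℝ) ≤ bPart P k q := by exact_mod_cast prod_pow_pos P hP _
    have hd1 : (1 : ℝ) ≤ d := by exact_mod_cast hd
    have h1 : Real.exp (s / 8) ≤ (aPart P k q : ℝ) * bPart P k q * d * ψ q := by
      calc Real.exp (s / 8) ≤ Real.exp (s / 4) * Real.exp (-(2 * t)) := by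
            rw [← Real.exp_add]; exact Real.exp_le_exp.2 (by linarith)
        _ ≤ (aPart P k q : ℝ) * ψ q :=
            mul_le_mul ha hψt (Real.exp_pos _).le (Nat.cast_nonneg _)
        _ ≤ _ := by
            refine mul_le_mul_of_nonneg_right ?_ (hψ q)
            calc (aPart P k q : ℝ) = (aPart P k q : ℝ) * 1 * 1 := by ring
              _ ≤ _ := by gcongr
    rw [one_pow, one_mul, Real.exp_neg, ← div_eq_mul_inv, div_mul_div_comm]
    rw [le_div_iff₀ (by positivity)]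
    nlinarith [Real.exp_pos (s / 8)]
  calc pairSum (mu ψ) (goodG P k G) V W
      ≤ ∑ q ∈ V, ∑ r ∈ W, 4 * Real.exp (-(s / 8)) * (if R q r then mu ψ q * mu ψ r * ((1 : ℝ) ^ 2 *
          ((aPart P k q : ℝ) * bPart P k q * d * ψ q / y1)) else 0) :=
        sum_le_sum fun q hq => sum_le_sum fun r hr => hpt q hq r hr
    _ ≤ 4 * Real.exp (-(s / 8)) * (4 * Cρ * msum (mu ψ) V) := by
        simp only [← mul_sum]
        refine mul_le_mul_of_nonneg_left (le_trans (le_of_eq ?_) hside') (by positivity)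
        exact sum_congr rfl fun q _ => sum_congr rfl fun r _ => by split_ifs <;> rfl
    _ = _ := by ring

lemma wgt_anti {κ κ' H s : ℝ} (hH : 3 ≤ H) (hs : 0 ≤ s) (h : κ ≤ κ') : wgt κ' H s ≤ wgt κ H s := by
  refine add_le_add (Real.exp_le_exp.2 ?_) le_rfl
  rw [div_le_div_iff_of_pos_right (lt_of_lt_of_le one_pos (log_one hH))]
  nlinarith

/-- A large divisor of the mode. -/
lemma part_b {ε : ℝ} (hε : Small ε) :
    ∃ C κ : ℝ, 0 ≤ C ∧ 0 < κ ∧ ∀ (ψ : ℕ → ℝ) (P V W : Finset ℕ) (k : ℕ → ℕ) (c d : ℕ)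
      (y1 y2 t s H : ℝ) (G : ℕ → ℕ → ℝ) (q0 r0 : ℕ), (∀ q, 0 ≤ ψ q) → (∀ p ∈ P, p.Prime) →
      (∀ q ∈ V, 0 < q ∧ 0 < ψ q) → (∀ r ∈ W, 0 < r ∧ 0 < ψ r) → IsState P V W c d →
      0 < c → 0 < d → 0 < y1 → 0 < y2 → y1 ≤ 4 → 3 ≤ H → 0 < s → t ≤ 2 * H →
      q0 ∈ V → r0 ∈ W → GoodPair P k q0 r0 → InCls ψ y1 y2 q0 r0 →
      Real.log q0 ≤ H → Real.exp (-(2 * t)) ≤ ψ q0 → (∀ q r, 0 ≤ G q r ∧ G q r ≤ 1) →
      (∀ q ∈ V, ∀ r ∈ W, G q r ≠ 0 →
        InCls ψ y1 y2 q r ∧ Real.exp (s / 4) ≤ (bPart P k r : ℝ)) →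
      pairSum (mu ψ) (goodG P k G) V W ≤ C * (y1 * y2) ^ (1 / 2 - ε) * wgt κ H s
        * (((c * d : ℕ) : ℝ) ^ (-tX ε) * (msum (mu ψ) V * msum (mu ψ) W) ^ aX ε) := by
  classical
  obtain ⟨Cs₀, hs⟩ := schur
  obtain ⟨Cρ, hCρ, hρ⟩ := rho_total
  obtain ⟨Ct, κ0, hCt, hκ0, htail⟩ := rho_tail
  have he := hε.1
  have he1 := hε.2
  set Cs := max Cs₀ 0
  set Kb := (Cs * Real.sqrt ((Ct + 1) * Cρ)) ^ (1 - 2 * ε) with hKb
  refine ⟨2 * Kb, κ0 / 4, by positivity, by positivity, ?_⟩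
  intro ψ P V W k c d y1 y2 t s H G q0 r0 hψ hP hV hW hst hc hd hy1 hy2 h14 hH hs0 htH
    hq0 hr0 hg0 hin hlq hψq hG hsupp
  have hμ := mu_nonneg' hψ
  have hlog := log_one hH
  have hN := prod_pow_pos P hP k
  have hcard : ((nMode P k).primeFactors.card : ℝ) ≤ 14 * H := by
    have h1 := Finset.card_le_card (mode_pf hP hst hq0 hr0 (hV q0 hq0).1 (hW r0 hr0).1 hg0)
    have h2 := h1.trans (Finset.card_union_le _ _)
    have h3 : ((nMode P k).primeFactors.card : ℝ) ≤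
        (q0.primeFactors.card : ℝ) + (vv q0 r0).primeFactors.card := by exact_mod_cast h2
    have hv0 : (0 : ℝ) < vv q0 r0 := by exact_mod_cast vv_pos q0 r0 (hW r0 hr0).1
    have hv : (vv q0 r0 : ℝ) ≤ Real.exp (2 + 2 * t) := by
      have h5 : (vv q0 r0 : ℝ) * Real.exp (-(2 * t)) ≤ 4 :=
        ((mul_le_mul_of_nonneg_left hψq hv0.le).trans hin.1.2).trans h14
      rw [Real.exp_neg, ← div_eq_mul_inv, div_le_iff₀ (Real.exp_pos _)] at h5
      refine h5.trans ?_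
      rw [Real.exp_add]
      refine mul_le_mul_of_nonneg_right ?_ (Real.exp_pos _).le
      rw [show (2 : ℝ) = 1 + 1 by norm_num, Real.exp_add]
      nlinarith [Real.add_one_le_exp (1 : ℝ)]
    have h6 := Real.log_le_log hv0 hv
    rw [Real.log_exp] at h6
    linarith [card_pf_le q0, card_pf_le (vv q0 r0)]
  set T := Real.exp (-κ0 * s / Real.log H) + 1 / H with hT
  have hT0 : 0 < T := by positivity
  have hZ : ∀ (U : Finset ℕ) (y : ℝ) (e : ℕ), (∀ q ∈ U, 0 < q ∧ 0 < ψ q) → 0 < y → 0 < e →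
      ∀ q ∈ U, 0 < y / (ψ q * (bPart P k q : ℝ) * (e : ℝ)) := by
    intro U y e hU hy he q hq
    have := (hU q hq).2
    have : (0 : ℝ) < bPart P k q := by exact_mod_cast prod_pow_pos P hP _
    positivity
  have h := hs ψ P V W k c d y1 y2 G
    (fun _ _ b' => bb (Real.exp (s / 4) ≤ (b' : ℝ))) (fun _ _ _ => 1) (Ct * T) Cρ hψ hP hV hW
    hst hy1 hy2 (by positivity) hCρ.le (fun q r => (hG q r).1) (fun _ _ _ => bb_nonneg _)
    (fun _ _ _ => zero_le_one) (fun q hq r hr h => (hsupp q hq r hr h).1)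
    (fun q hq r hr _ => by
      rw [mul_one]
      by_cases hz : G q r = 0
      · rw [hz]; exact bb_nonneg _
      · rw [bb, if_pos (hsupp q hq r hr hz).2]; exact (hG q r).2)
    (fun q hq => by
      refine le_trans (sum_le_sum fun b _ => ?_) (htail _ H s hN hH hs0 hcard)
      refine mul_le_mul_of_nonneg_left ?_ (rhoN_nonneg _ _)
      simp only [bb_sq, avgA, sum_const, nsmul_eq_mul]
      rw [← mul_assoc]
      refine mul_le_of_le_one_left (bb_nonneg _) ?_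
      rw [one_div_mul_eq_div, div_le_one (hZ V y1 d hV hy1 hd q hq)]
      exact card_dyInt_le (hZ V y1 d hV hy1 hd q hq).le)
    (fun r hr => side_one (hZ W y2 c hW hy2 hc r hr) (hρ _ hN))
  have h' : pairSum (mu ψ) (goodG P k G) V W ≤ Cs * Real.sqrt (((Ct + 1) * Cρ) * T)
      * Real.sqrt (y1 * y2) * ((c * d : ℕ) : ℝ) ^ (-(1 / 2 : ℝ))
      * Real.sqrt (msum (mu ψ) V * msum (mu ψ) W) := by
    refine h.trans ?_
    have h1 : Real.sqrt (Ct * T * Cρ) ≤ Real.sqrt (((Ct + 1) * Cρ) * T) := by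
      refine Real.sqrt_le_sqrt ?_
      have := mul_nonneg hCρ.le hT0.le
      nlinarith
    gcongr
    exact le_max_left _ _
  refine (to_finalX hε _ _ V W c d _ _ hμ (good_mem hG) (by positivity) (by positivity) h').trans ?_
  rw [mul_assoc]
  refine mul_le_mul_of_nonneg_right ?_ (mul_nonneg (Real.rpow_nonneg (Nat.cast_nonneg _) _)
    (Real.rpow_nonneg (mul_nonneg (sum_nonneg fun q _ => hμ q) (sum_nonneg fun q _ => hμ q)) _))
  have hT2 : T ≤ 2 := by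
    have h1 : Real.exp (-κ0 * s / Real.log H) ≤ 1 := Real.exp_le_one_iff.2
      (div_nonpos_of_nonpos_of_nonneg (by nlinarith) (by linarith))
    have h2 : 1 / H ≤ 1 := by rw [div_le_one (by linarith)]; linarith
    linarith
  set w := wgt (κ0 / 4) H s with hwd
  have hTw : T ^ ((1 : ℝ) / 2 * (1 - 2 * ε)) ≤ 2 * w := by
    calc T ^ ((1 : ℝ) / 2 * (1 - 2 * ε)) = (2 * (T / 2)) ^ ((1 : ℝ) / 2 * (1 - 2 * ε)) := by
          rw [mul_div_cancel₀ _ two_ne_zero]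
      _ ≤ 2 * (T / 2) ^ ((1 : ℝ) / 4) := by
          rw [Real.mul_rpow two_pos.le (by positivity)]
          refine mul_le_mul ?_ (Real.rpow_le_rpow_of_exponent_ge (by positivity) (by linarith)
            (by linarith)) (by positivity) (by norm_num)
          calc (2 : ℝ) ^ ((1 : ℝ) / 2 * (1 - 2 * ε)) ≤ (2 : ℝ) ^ (1 : ℝ) :=
                Real.rpow_le_rpow_of_exponent_le (by norm_num) (by linarith)
            _ = 2 := Real.rpow_one _
      _ ≤ 2 * w := by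
          refine mul_le_mul_of_nonneg_left ?_ two_pos.le
          refine (Real.rpow_le_rpow (by positivity) (half_le_self hT0.le) (by norm_num)).trans ?_
          refine (Real.rpow_add_le_add_rpow (Real.exp_pos _).le (by positivity) (by norm_num)
            (by norm_num)).trans ?_
          refine add_le_add (le_of_eq ?_) ?_
          · rw [← Real.exp_mul]; ring_nf
          · rw [one_div H, ← Real.rpow_neg_one, ← Real.rpow_mul (by linarith)]
            exact Real.rpow_le_rpow_of_exponent_le (by linarith) (by norm_num)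
  have e : (Cs * Real.sqrt (((Ct + 1) * Cρ) * T)) ^ (1 - 2 * ε)
      = Kb * T ^ ((1 : ℝ) / 2 * (1 - 2 * ε)) := by
    rw [hKb, Real.sqrt_mul (by positivity), ← mul_assoc,
      Real.mul_rpow (by positivity) (Real.sqrt_nonneg _), Real.sqrt_eq_rpow T,
      ← Real.rpow_mul hT0.le]
  rw [e]
  have hw : 0 < w := wgt_pos hH
  calc Kb * T ^ ((1 : ℝ) / 2 * (1 - 2 * ε)) * (y1 * y2) ^ (1 / 2 - ε)
        * ((c * d : ℕ) : ℝ) ^ (-(ε / 4))
      ≤ Kb * (2 * w) * (y1 * y2) ^ (1 / 2 - ε) * 1 := by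
        gcongr
        exact rpow_neg_natCast_le_one _ (by linarith)
    _ = _ := by ring

/-- A large cofactor on the coarse side. -/
lemma part_a {ε : ℝ} (hε : Small ε) :
    ∃ C : ℝ, 0 ≤ C ∧ ∀ (ψ : ℕ → ℝ) (P V W : Finset ℕ) (k : ℕ → ℕ) (c d : ℕ)
      (y1 y2 t s κ H MS : ℝ) (G : ℕ → ℕ → ℝ), (∀ q, 0 ≤ ψ q) → (∀ p ∈ P, p.Prime) →
      (∀ q ∈ V, 0 < q ∧ 0 < ψ q) → (∀ r ∈ W, 0 < r ∧ 0 < ψ r) → IsState P V W c d →
      0 < c → 0 < d → 0 < y1 → 0 < y2 → y1 ≤ 4 → y2 ≤ 4 → 16 * t ≤ s → 0 ≤ s → 3 ≤ H →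
      0 ≤ κ → κ ≤ ε / 40 → msum (mu ψ) V ≤ MS → (∀ q r, 0 ≤ G q r ∧ G q r ≤ 1) →
      (∀ q ∈ V, ∀ r ∈ W, G q r ≠ 0 → InCls ψ y1 y2 q r ∧ Real.exp (-(2 * t)) ≤ ψ q ∧
        Real.exp (s / 4) ≤ (aPart P k q : ℝ)) →
      pairSum (mu ψ) (goodG P k G) V W
        ≤ C * Real.sqrt (y1 * y2) ^ (1 - 12 * ε / 5) * wgt κ H s * MS ^ (ε / 5)
        * (((c * d : ℕ) : ℝ) ^ (-tX ε) * (msum (mu ψ) V * msum (mu ψ) W) ^ aX ε) := by
  classical
  obtain ⟨Cc, hCc, hcls⟩ := cls_schur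
  obtain ⟨Ca, hCa, hside⟩ := side_a
  have he := hε.1
  have he1 := hε.2
  set Ka := Ca ^ (ε / 5) * Cc ^ (1 - 12 * ε / 5) with hKa
  refine ⟨Ka, by positivity, ?_⟩
  intro ψ P V W k c d y1 y2 t s κ H MS G hψ hP hV hW hst hc hd hy1 hy2 h14 h24 hts hs0 hH
    hκ hκε hMV hG hsupp
  have hμ := mu_nonneg' hψ
  set X := msum (mu ψ) V * msum (mu ψ) W with hX
  set E := pairSum (mu ψ) (goodG P k G) V W with hE
  have hM0 : 0 ≤ msum (mu ψ) V := sum_nonneg fun q _ => hμ q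
  have hMS : 0 ≤ MS := hM0.trans hMV
  have hX0 : 0 ≤ X := mul_nonneg hM0 (sum_nonneg fun q _ => hμ q)
  have hE0 : 0 ≤ E := sum_nonneg fun q _ => sum_nonneg fun r _ =>
    mul_nonneg (mul_nonneg (hμ q) (hμ r)) (good_mem hG q r).1
  have hEX : E ≤ X := by
    rw [hE, hX, msum, msum, sum_mul_sum]
    exact sum_le_sum fun q _ => sum_le_sum fun r _ =>
      mul_le_of_le_one_right (mul_nonneg (hμ q) (hμ r)) (good_mem hG q r).2
  have hEall : E ≤ Cc * Real.sqrt (y1 * y2) * ((c * d : ℕ) : ℝ) ^ (-(1 / 2 : ℝ)) * Real.sqrt X := by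
    refine le_trans (pairSum_mono hμ fun q hq r hr => ?_) (hcls ψ P V W k c d y1 y2 hψ hP hV hW hst hy1 hy2)
    unfold goodG
    split_ifs
    · by_cases hz : G q r = 0
      · rw [hz]; exact (cls_mem ψ y1 y2 q r).1
      · rw [clsI, if_pos (hsupp q hq r hr hz).1]; exact (hG q r).2
    · exact le_rfl
  have hEa : E ≤ Ca * Real.exp (-(s / 8)) * MS :=
    (hside ψ P V W k c d y1 y2 t s G hψ hP hV hW hst hc hd hy1 hy2 h14 h24 hts hG
      fun q hq r hr _ h => hsupp q hq r hr h).trans (mul_le_mul_of_nonneg_left hMV (by positivity))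
  have hcd1 : (1 : ℝ) ≤ ((c * d : ℕ) : ℝ) := by exact_mod_cast Nat.mul_pos hc hd
  refine (three_bounds hE0 hEa hEall hEX (show 0 ≤ ε / 5 by linarith)
    (show 0 ≤ 1 - 12 * ε / 5 by linarith) (show 0 ≤ 11 * ε / 5 by linarith) (by ring)).trans ?_
  set β := 1 - 12 * ε / 5 with hβ
  have hexp : Real.exp (-(s / 8)) ^ (ε / 5) ≤ wgt κ H s := by
    rw [← Real.exp_mul, show -(s / 8) * (ε / 5) = -(ε / 40 * s) by ring]
    exact exp_le_wgt hH hs0 hκ hκε
  have hcdb : (((c * d : ℕ) : ℝ) ^ (-(1 / 2 : ℝ))) ^ β ≤ ((c * d : ℕ) : ℝ) ^ (-tX ε) := by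
    rw [← Real.rpow_mul (by linarith)]
    exact Real.rpow_le_rpow_of_exponent_le hcd1 (by unfold tX; linarith)
  have hXb : Real.sqrt X ^ β * X ^ (11 * ε / 5) = X ^ aX ε := by
    rw [Real.sqrt_eq_rpow, ← Real.rpow_mul hX0, ← Real.rpow_add' hX0 (by linarith)]
    congr 1
    unfold aX; ring
  calc (Ca * Real.exp (-(s / 8)) * MS) ^ (ε / 5) * (Cc * Real.sqrt (y1 * y2)
        * ((c * d : ℕ) : ℝ) ^ (-(1 / 2 : ℝ)) * Real.sqrt X) ^ β * X ^ (11 * ε / 5)
      = Ka * Real.sqrt (y1 * y2) ^ β * Real.exp (-(s / 8)) ^ (ε / 5) * MS ^ (ε / 5)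
          * ((((c * d : ℕ) : ℝ) ^ (-(1 / 2 : ℝ))) ^ β * (Real.sqrt X ^ β * X ^ (11 * ε / 5))) := by
        rw [Real.mul_rpow (by positivity) hMS, Real.mul_rpow hCa (Real.exp_pos _).le,
          Real.mul_rpow (by positivity) (Real.sqrt_nonneg _),
          Real.mul_rpow (by positivity) (Real.rpow_nonneg (Nat.cast_nonneg _) _),
          Real.mul_rpow hCc (Real.sqrt_nonneg _), hKa]
        ring
    _ ≤ _ := by
        rw [hXb]
        have := wgt_pos (κ := κ) (s := s) hH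
        gcongr

/-- The bound required of good states, between two levels `t ≪ s`. -/
lemma level_final {ε : ℝ} (hε : Small ε) :
    ∃ C κ : ℝ, 0 ≤ C ∧ 0 < κ ∧ ∀ (ψ : ℕ → ℝ) (S V0 W0 : Finset ℕ) (H t s y1 y2 Y : ℝ) (p0 : ℕ),
      (∀ q, 0 ≤ ψ q) → (∀ q ∈ S, 0 < q ∧ 0 < ψ q) →
      (∀ q ∈ V0, Real.log q ≤ H ∧ Real.exp (-(2 * t)) ≤ ψ q) →
      (∀ r ∈ W0, ψ r ≤ Real.exp (-s)) →
      3 ≤ H → t ≤ 2 * H → 16 * t ≤ s → 100 ≤ s → 0 < y1 → 0 < y2 → y1 ≤ Y → y2 ≤ Y → Y ≤ 4 →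
      Real.exp (-(s / 10)) ≤ y2 →
      FinalX ε p0 (mu ψ) (GX ψ y1 y2 V0 W0)
        (C * Y ^ (1 - 3 * ε) * wgt κ H s * (1 + msum (mu ψ) S ^ (ε / 5))) S := by
  classical
  obtain ⟨Cc, hCc, hcls⟩ := cls_schur
  obtain ⟨Kb, κ0, hKb, hκ0, hpb⟩ := part_b hε
  obtain ⟨Ka, hKa, hpa⟩ := part_a hε
  have he := hε.1
  have he1 := hε.2
  set κ := min κ0 (ε / 40) with hκ
  have hκpos : 0 < κ := lt_min hκ0 (by positivity)
  refine ⟨4 * (Cc ^ (1 - 2 * ε) + 2 * Kb + Ka), κ, by positivity, hκpos, ?_⟩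
  intro ψ S V0 W0 H t s y1 y2 Y p0 hψ hS hV0 hW0 hH htH hts hs100 hy1 hy2 h1Y h2Y hY4 hy2lo
    P V W k c d hV hW hP hst
  have hμ := mu_nonneg' hψ
  have hPp : ∀ p ∈ P, p.Prime := fun p hp => (hP p hp).1
  have hV' : ∀ q ∈ V, 0 < q ∧ 0 < ψ q := fun q hq => hS q (hV hq)
  have hW' : ∀ q ∈ W, 0 < q ∧ 0 < ψ q := fun q hq => hS q (hW hq)
  have hY0 : 0 < Y := lt_of_lt_of_le hy1 h1Y
  have hlog := log_one hH
  set MS := msum (mu ψ) S
  have hMS : 0 ≤ MS := sum_nonneg fun q _ => hμ q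
  set X := msum (mu ψ) V * msum (mu ψ) W with hX
  have hMV : 0 ≤ msum (mu ψ) V := sum_nonneg fun q _ => hμ q
  have hX0 : 0 ≤ X := mul_nonneg hMV (sum_nonneg fun q _ => hμ q)
  set cdp := ((c * d : ℕ) : ℝ) ^ (-tX ε) with hcdp
  have hcdp0 : 0 ≤ cdp := Real.rpow_nonneg (Nat.cast_nonneg _) _
  set w := wgt κ H s
  have hw : 0 < w := wgt_pos hH
  set Yp := Y ^ (1 - 3 * ε) with hYp
  have hYp0 : 0 ≤ Yp := Real.rpow_nonneg hY0.le _
  have hMa : (1 : ℝ) ≤ 1 + MS ^ (ε / 5) := le_add_of_nonneg_right (Real.rpow_nonneg hMS _)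
  set rhs := cdp * X ^ aX ε with hrhs
  have hrhs0 : 0 ≤ rhs := mul_nonneg hcdp0 (Real.rpow_nonneg hX0 _)
  have hYpow : ∀ e : ℝ, 1 - 3 * ε ≤ e → e ≤ 1 → Y ^ e ≤ 4 * Yp := by
    intro e h1 h2
    rw [show e = (1 - 3 * ε) + (e - (1 - 3 * ε)) by ring, Real.rpow_add hY0, mul_comm (4 : ℝ)]
    refine mul_le_mul_of_nonneg_left ?_ hYp0
    calc Y ^ (e - (1 - 3 * ε)) ≤ (4 : ℝ) ^ (e - (1 - 3 * ε)) :=
          Real.rpow_le_rpow hY0.le hY4 (by linarith)
      _ ≤ (4 : ℝ) ^ (1 : ℝ) := Real.rpow_le_rpow_of_exponent_le (by norm_num) (by linarith)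
      _ = 4 := Real.rpow_one _
  have hyy : (y1 * y2) ^ (1 / 2 - ε) ≤ 4 * Yp := by
    refine le_trans ?_ (hYpow (1 - 2 * ε) (by linarith) (by linarith))
    calc (y1 * y2) ^ (1 / 2 - ε) ≤ (Y * Y) ^ (1 / 2 - ε) :=
          Real.rpow_le_rpow (by positivity) (mul_le_mul h1Y h2Y hy2.le hY0.le) (by linarith)
      _ = _ := by rw [Real.mul_rpow hY0.le hY0.le, ← Real.rpow_add hY0]; ring_nf
  set G0 := GX ψ y1 y2 V0 W0 with hG0
  have hG01 : ∀ q r, 0 ≤ G0 q r ∧ G0 q r ≤ 1 := fun q r =>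
    ⟨(GX_mem ψ y1 y2 V0 W0 q r).1, (GX_mem ψ y1 y2 V0 W0 q r).2.trans (cls_mem ψ y1 y2 q r).2⟩
  suffices h : pairSum (mu ψ) (goodG P k G0) V W
      ≤ 4 * (Cc ^ (1 - 2 * ε) + 2 * Kb + Ka) * Yp * w * (1 + MS ^ (ε / 5)) * rhs by
    refine h.trans (le_of_eq ?_)
    rw [hrhs, hX]; ring
  have hbig : ∀ K : ℝ, 0 ≤ K → K ≤ 4 * (Cc ^ (1 - 2 * ε) + 2 * Kb + Ka) * Yp * w →
      K * rhs ≤ 4 * (Cc ^ (1 - 2 * ε) + 2 * Kb + Ka) * Yp * w * (1 + MS ^ (ε / 5)) * rhs :=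
    fun K hK0 hK => mul_le_mul_of_nonneg_right
      (hK.trans (le_mul_of_one_le_right (hK0.trans hK) hMa)) hrhs0
  by_cases hne : ∃ q ∈ V, ∃ r ∈ W, GoodPair P k q r ∧ G0 q r ≠ 0
  swap
  · have h0 : pairSum (mu ψ) (goodG P k G0) V W = 0 := by
      refine sum_eq_zero fun q hq => sum_eq_zero fun r hr => ?_
      unfold goodG
      split_ifs with hg
      · by_cases hG : G0 q r = 0
        · simp [hG]
        · exact absurd ⟨q, hq, r, hr, hg, hG⟩ hne
      · simp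
    rw [h0]; positivity
  obtain ⟨q0, hq0, r0, hr0, hg0, hG00⟩ := hne
  have huv0 := uu_eq P k V W c d q0 r0 hPp hst hq0 hr0 (hV' q0 hq0).1 (hW' r0 hr0).1 hg0
  have hc : 0 < c := by
    have := uu_pos q0 r0 (hV' q0 hq0).1
    rw [huv0.1] at this
    exact Nat.pos_of_mul_pos_right (Nat.pos_of_mul_pos_right this)
  have hd : 0 < d := by
    have := vv_pos q0 r0 (hW' r0 hr0).1
    rw [huv0.2] at this
    exact Nat.pos_of_mul_pos_right (Nat.pos_of_mul_pos_right this)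
  have hcd1 : (1 : ℝ) ≤ ((c * d : ℕ) : ℝ) := by exact_mod_cast Nat.mul_pos hc hd
  have hsupp : ∀ q ∈ V, ∀ r ∈ W, G0 q r ≠ 0 → InCls ψ y1 y2 q r ∧ q ∈ V0 ∧ r ∈ W0 := by
    intro q _ r _ h
    obtain ⟨h1, h2⟩ := mul_ne_zero_iff.1 h
    by_cases hm : q ∈ V0 ∧ r ∈ W0
    · exact ⟨cls_inCls h2, hm⟩
    · exact absurd (show bb (q ∈ V0 ∧ r ∈ W0) = 0 by rw [bb, if_neg hm]) h1
  have hall : pairSum (mu ψ) (goodG P k G0) V W ≤ Cc * Real.sqrt (y1 * y2)
      * ((c * d : ℕ) : ℝ) ^ (-(1 / 2 : ℝ)) * Real.sqrt X := by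
    refine le_trans (pairSum_mono hμ fun q _ r _ => ?_)
      (hcls ψ P V W k c d y1 y2 hψ hPp hV' hW' hst hy1 hy2)
    unfold goodG
    split_ifs
    · exact (GX_mem ψ y1 y2 V0 W0 q r).2
    · exact le_rfl
  by_cases hcd : Real.exp (s / 8) < ((c * d : ℕ) : ℝ)
  · refine (to_finalX hε _ _ V W c d Cc _ hμ (good_mem hG01) hCc (by positivity) hall).trans ?_
    rw [mul_assoc]
    refine hbig _ (by positivity) ?_
    have hx : ((c * d : ℕ) : ℝ) ^ (-(ε / 4)) ≤ w := by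
      refine (Real.rpow_le_rpow_of_nonpos (Real.exp_pos _) hcd.le (by linarith)).trans ?_
      rw [← Real.exp_mul, show s / 8 * -(ε / 4) = -(ε / 32 * s) by ring]
      exact exp_le_wgt hH (by linarith) hκpos.le ((min_le_right _ _).trans (by linarith))
    calc Cc ^ (1 - 2 * ε) * (y1 * y2) ^ (1 / 2 - ε) * ((c * d : ℕ) : ℝ) ^ (-(ε / 4))
        ≤ Cc ^ (1 - 2 * ε) * (4 * Yp) * w := by gcongr
      _ = 4 * Cc ^ (1 - 2 * ε) * Yp * w := by ring
      _ ≤ _ := by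
          gcongr
          have : 0 ≤ Kb := by positivity
          have : 0 ≤ Ka := by positivity
          linarith
  push Not at hcd
  -- the two parts
  set Gb : ℕ → ℕ → ℝ := fun q r => G0 q r * bb (Real.exp (s / 4) ≤ (bPart P k r : ℝ)) with hGb
  set Ga : ℕ → ℕ → ℝ := fun q r => G0 q r * bb (Real.exp (s / 4) ≤ (aPart P k q : ℝ)) with hGa
  have hGb1 : ∀ q r, 0 ≤ Gb q r ∧ Gb q r ≤ 1 := fun q r => ⟨mul_nonneg (hG01 q r).1 (bb_nonneg _),
    mul_le_one₀ (hG01 q r).2 (bb_nonneg _) (bb_le_one _)⟩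
  have hGa1 : ∀ q r, 0 ≤ Ga q r ∧ Ga q r ≤ 1 := fun q r => ⟨mul_nonneg (hG01 q r).1 (bb_nonneg _),
    mul_le_one₀ (hG01 q r).2 (bb_nonneg _) (bb_le_one _)⟩
  have hsplit : pairSum (mu ψ) (goodG P k G0) V W
      ≤ pairSum (mu ψ) (goodG P k Gb) V W + pairSum (mu ψ) (goodG P k Ga) V W := by
    rw [← pairSum_add]
    refine pairSum_mono hμ fun q hq r hr => ?_
    unfold goodG
    split_ifs with hg
    swap
    · norm_num
    by_cases hG : G0 q r = 0
    · simp only [hGb, hGa, hG]; simp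
    obtain ⟨hin, -, hrW⟩ := hsupp q hq r hr hG
    obtain ⟨hu, -⟩ := uu_eq P k V W c d q r hPp hst hq hr (hV' q hq).1 (hW' r hr).1 hg
    have hA : Real.exp (s / 4) ≤ (aPart P k q : ℝ) ∨ Real.exp (s / 4) ≤ (bPart P k r : ℝ) := by
      by_contra hno
      push Not at hno
      have hyu := hin.2.1
      rw [hu] at hyu
      push_cast at hyu
      have hcs : (c : ℝ) ≤ Real.exp (s / 8) :=
        le_trans (by exact_mod_cast Nat.le_mul_of_pos_right c hd) hcd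
      have h1 : (c : ℝ) * aPart P k q * bPart P k r * ψ r
          ≤ Real.exp (s / 8) * Real.exp (s / 4) * Real.exp (s / 4) * Real.exp (-s) := by
        gcongr
        · exact hψ r
        · exact hno.1.le
        · exact hno.2.le
        · exact hW0 r hrW
      rw [← Real.exp_add, ← Real.exp_add, ← Real.exp_add] at h1
      have h2 : Real.exp (s / 8 + s / 4 + s / 4 + -s) * 2 ≤ Real.exp (-(s / 10)) := by
        rw [show -(s / 10) = (s / 8 + s / 4 + s / 4 + -s) + (11 / 40 * s) by ring,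
          Real.exp_add _ (11 / 40 * s)]
        refine mul_le_mul_of_nonneg_left ?_ (Real.exp_pos _).le
        linarith [Real.add_one_le_exp (11 / 40 * s)]
      linarith
    have h0 := (hG01 q r).1
    simp only [hGb, hGa, bb]
    rcases hA with h | h
    · rw [if_pos h]
      split_ifs <;> linarith
    · rw [if_pos h]
      split_ifs <;> linarith
  have hb : pairSum (mu ψ) (goodG P k Gb) V W ≤ Kb * (4 * Yp) * w * rhs := by
    obtain ⟨hin, hqV0, -⟩ := hsupp q0 hq0 r0 hr0 hG00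
    refine (hpb ψ P V W k c d y1 y2 t s H Gb q0 r0 hψ hPp hV' hW' hst hc hd hy1 hy2 (h1Y.trans hY4)
      hH (by linarith) htH hq0 hr0 hg0 hin (hV0 q0 hqV0).1 (hV0 q0 hqV0).2 hGb1
      fun q hq r hr h => ?_).trans ?_
    · obtain ⟨h1, h2⟩ := mul_ne_zero_iff.1 h
      refine ⟨(hsupp q hq r hr h1).1, ?_⟩
      by_contra hx
      exact h2 (by rw [bb, if_neg hx])
    · refine mul_le_mul_of_nonneg_right ?_ hrhs0
      exact mul_le_mul (mul_le_mul_of_nonneg_left hyy hKb)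
        (wgt_anti hH (by linarith) (min_le_left _ _)) (wgt_pos hH).le (by positivity)
  have ha : pairSum (mu ψ) (goodG P k Ga) V W ≤ Ka * (4 * Yp) * w * MS ^ (ε / 5) * rhs := by
    refine (hpa ψ P V W k c d y1 y2 t s κ H MS Ga hψ hPp hV' hW' hst hc hd hy1 hy2 (h1Y.trans hY4)
      (h2Y.trans hY4) hts (by linarith) hH hκpos.le (min_le_right _ _)
      (sum_le_sum_of_subset_of_nonneg hV fun q _ _ => hμ q) hGa1 fun q hq r hr h => ?_).trans ?_
    · obtain ⟨h1, h2⟩ := mul_ne_zero_iff.1 h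
      obtain ⟨h3, h4, -⟩ := hsupp q hq r hr h1
      refine ⟨h3, (hV0 q h4).2, ?_⟩
      by_contra hx
      exact h2 (by rw [bb, if_neg hx])
    · refine mul_le_mul_of_nonneg_right ?_ hrhs0
      refine mul_le_mul_of_nonneg_right (mul_le_mul_of_nonneg_right
        (mul_le_mul_of_nonneg_left ?_ hKa) hw.le) (Real.rpow_nonneg hMS _)
      refine le_trans (Real.rpow_le_rpow (Real.sqrt_nonneg _) ?_ (by linarith))
        (hYpow _ (by linarith) (by linarith))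
      refine (Real.sqrt_le_sqrt (mul_le_mul h1Y h2Y hy2.le hY0.le)).trans ?_
      rw [Real.sqrt_mul_self hY0.le]
  refine hsplit.trans ((add_le_add hb ha).trans ?_)
  rw [← add_mul]
  refine mul_le_mul_of_nonneg_right ?_ hrhs0
  have h0 : 0 ≤ Kb := by positivity
  have h1 : 0 ≤ Ka := by positivity
  have h2 : 0 ≤ Cc ^ (1 - 2 * ε) := by positivity
  have hm : 0 ≤ MS ^ (ε / 5) := Real.rpow_nonneg hMS _
  have h3 : 0 ≤ Yp * w := by positivity
  nlinarith [mul_nonneg (mul_nonneg h0 h3) hm, mul_nonneg h1 h3, mul_nonneg (mul_nonneg h2 h3) hm,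
    mul_nonneg h2 h3]

/-- The class bound between two levels. -/
lemma level_class {ε : ℝ} (hε : Small ε) :
    ∃ C κ : ℝ, 0 ≤ C ∧ 0 < κ ∧ ∀ (ψ : ℕ → ℝ) (V W : Finset ℕ) (H t s y1 y2 Y : ℝ),
      (∀ q, 0 ≤ ψ q) → (∀ q ∈ V ∪ W, 0 < q ∧ 0 < ψ q) →
      (∀ q ∈ V, Real.log q ≤ H ∧ Real.exp (-(2 * t)) ≤ ψ q) →
      (∀ r ∈ W, ψ r ≤ Real.exp (-s)) →
      3 ≤ H → t ≤ 2 * H → 16 * t ≤ s → 100 ≤ s → 0 < y1 → 0 < y2 → y1 ≤ Y → y2 ≤ Y → Y ≤ 4 →
      Real.exp (-(s / 10)) ≤ y2 →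
      pairSum (mu ψ) (clsI ψ y1 y2) V W ≤ C * Y ^ (1 - 3 * ε) * wgt κ H s *
        (msum (mu ψ) (V ∪ W) + msum (mu ψ) (V ∪ W) ^ 2) := by
  obtain ⟨C, κ, hC, hκ, hfin⟩ := level_final hε
  obtain ⟨p0, K, hK, hb⟩ := bilinearX hε
  refine ⟨2 * (K * C), κ, by positivity, hκ, ?_⟩
  intro ψ V W H t s y1 y2 Y hψ hS hV hW hH htH hts hs hy1 hy2 h1 h2 hY hlo
  have hμ := mu_nonneg' hψ
  set S := V ∪ W
  set M := msum (mu ψ) S with hM
  have hM0 : 0 ≤ M := sum_nonneg fun q _ => hμ q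
  have hY0 : 0 < Y := lt_of_lt_of_le hy1 h1
  have hw := wgt_pos (κ := κ) (s := s) hH
  set δ := C * Y ^ (1 - 3 * ε) * wgt κ H s with hδdef
  have hδ : 0 ≤ δ := by positivity
  have hMe : 0 ≤ M ^ (ε / 5) := Real.rpow_nonneg hM0 _
  have h := hb (mu ψ) (GX ψ y1 y2 V W) _ S V W hμ (fun q r => (GX_mem ψ y1 y2 V W q r).1)
    (mul_nonneg hδ (by positivity)) (fun q hq => (hS q hq).1) subset_union_left subset_union_right
    (hfin ψ S V W H t s y1 y2 Y p0 hψ hS hV hW hH htH hts hs hy1 hy2 h1 h2 hY hlo)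
  have e : pairSum (mu ψ) (clsI ψ y1 y2) V W = pairSum (mu ψ) (GX ψ y1 y2 V W) V W :=
    sum_congr rfl fun q hq => sum_congr rfl fun r hr => by
      rw [GX, bb, if_pos ⟨hq, hr⟩, one_mul]
  rw [e]
  refine h.trans ?_
  have hle : ∀ U : Finset ℕ, U ⊆ S → msum (mu ψ) U ≤ M := fun U hU =>
    sum_le_sum_of_subset_of_nonneg hU fun q _ _ => hμ q
  have he := hε.1
  have he1 := hε.2
  have ha : (msum (mu ψ) V * msum (mu ψ) W) ^ aX ε ≤ (M * M) ^ aX ε :=
    Real.rpow_le_rpow (mul_nonneg (sum_nonneg fun q _ => hμ q) (sum_nonneg fun q _ => hμ q))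
      (mul_le_mul (hle V subset_union_left) (hle W subset_union_right)
        (sum_nonneg fun q _ => hμ q) hM0) (aX_pos hε).le
  have hp : M ^ (ε / 5) * (M * M) ^ aX ε ≤ M + M ^ 2 := by
    rw [Real.mul_rpow hM0 hM0, ← Real.rpow_add' hM0 (by unfold aX; linarith),
      ← Real.rpow_add' hM0 (by unfold aX; linarith)]
    rcases le_total M 1 with hm | hm
    · exact (Real.rpow_le_self_of_le_one hM0 hm (by unfold aX; linarith)).trans
        (le_add_of_nonneg_right (sq_nonneg M))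
    · refine le_add_of_nonneg_of_le hM0 ?_
      rw [← Real.rpow_two]
      exact Real.rpow_le_rpow_of_exponent_le hm (by unfold aX; linarith)
  calc K * (δ * (1 + M ^ (ε / 5))) * (msum (mu ψ) V * msum (mu ψ) W) ^ aX ε
      ≤ K * (δ * (1 + M ^ (ε / 5))) * (M * M) ^ aX ε :=
        mul_le_mul_of_nonneg_left ha (by positivity)
    _ = K * δ * ((M * M) ^ aX ε + M ^ (ε / 5) * (M * M) ^ aX ε) := by ring
    _ ≤ K * δ * (2 * (M + M ^ 2)) := by
        refine mul_le_mul_of_nonneg_left ?_ (by positivity)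
        linarith [omegaX hε M hM0]
    _ = _ := by rw [hδdef]; ring

end Vale.Agent.P028M
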