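import Vale.Agent.P028M.Cross
import Vale.Agent.P028X.Group
import Vale.Agent.P028L.Main

/-! P028M module CELLS: second moment on one slice `log q ≤ H` with all levels above `a log H`. -/

namespace Vale.Agent.P028M

open Finset MeasureTheory
open Vale.Agent.P028 Vale.Agent.P028X
open Vale.Agent.P028.MainAux (cls scale cls_spec one_le_scale)

lemma sqrt_wgt_le {κ H s : ℝ} (hH : 3 ≤ H) :
    Real.sqrt (wgt κ H s)
      ≤ Real.exp (-(κ / 2) * s / Real.log H) + H ^ (-(1 / 16) : ℝ) := by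
  have h0 : 0 ≤ H := by linarith
  rw [Real.sqrt_eq_rpow, wgt]
  refine (Real.rpow_add_le_add_rpow (Real.exp_pos _).le (Real.rpow_nonneg h0 _) (by norm_num)
    (by norm_num)).trans (add_le_add (le_of_eq ?_) (le_of_eq ?_))
  · rw [← Real.exp_mul]; ring_nf
  · rw [← Real.rpow_mul h0]; norm_num

/-- The gains of all levels of a slice are summable. -/
lemma level_sum {κ a : ℝ} (hκ : 0 < κ) (ha : 0 < a) :
    ∃ C : ℝ, 0 ≤ C ∧ ∀ (L : Finset ℕ) (H : ℝ), 3 ≤ H →
      (∀ l ∈ L, a * Real.log H ≤ scale l ∧ scale l ≤ 2 * H) →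
      ∑ l ∈ L, Real.sqrt (wgt κ H (scale l)) ≤ C := by
  have hb : (1 : ℝ) < 1 + zeta0 := by norm_num [zeta0]
  have hlb := Real.log_pos hb
  set c := κ / 2 * a with hc
  have hc0 : 0 < c := by positivity
  set Sc := ∑' n : ℕ, ((n : ℝ) + 1) * Real.exp (-c * scale n) with hSc
  have hSc0 : 0 ≤ Sc := tsum_nonneg fun n => by positivity
  refine ⟨Sc + (16 * 2 / Real.log (1 + zeta0) + 1), by positivity, fun L H hH hL => ?_⟩
  rcases L.eq_empty_or_nonempty with he | hne
  · subst he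
    simp only [sum_empty]
    positivity
  set lg := Real.log H with hlgd
  have hlg : 1 ≤ lg := log_one hH
  refine (sum_le_sum fun l _ => sqrt_wgt_le hH).trans ?_
  rw [sum_add_distrib]
  refine add_le_add ?_ ?_
  · set l0 := L.min' hne with hl0
    calc ∑ l ∈ L, Real.exp (-(κ / 2) * scale l / lg)
        ≤ ∑ l ∈ L, (((l - l0 : ℕ) : ℝ) + 1) * Real.exp (-c * scale (l - l0)) := by
          refine sum_le_sum fun l hl => ?_
          refine le_trans (Real.exp_le_exp.2 ?_) (le_mul_of_one_le_left (Real.exp_pos _).le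
            (le_add_of_nonneg_left (Nat.cast_nonneg _)))
          have hle : l0 ≤ l := L.min'_le l hl
          have e : scale l = scale l0 * scale (l - l0) := by
            rw [scale, scale, scale, ← pow_add, Nat.add_sub_cancel' hle]
          have h0 := mul_le_mul_of_nonneg_right (hL l0 (L.min'_mem hne)).1
            (le_trans zero_le_one (one_le_scale (l - l0)))
          rw [← e] at h0
          rw [div_le_iff₀ (by linarith), hc]
          linarith [mul_le_mul_of_nonneg_left h0 (show 0 ≤ κ / 2 by positivity)]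
      _ = ∑ n ∈ L.image (fun l => l - l0), ((n : ℝ) + 1) * Real.exp (-c * scale n) := by
          rw [sum_image]
          intro x hx y hy hxy
          have h1 := L.min'_le x hx
          have h2 := L.min'_le y hy
          simp only [← hl0] at h1 h2 hxy
          omega
      _ ≤ Sc := (P028L.level_series hc0).sum_le_tsum _ fun n _ => by positivity
  · rw [sum_const, nsmul_eq_mul]
    set N := ⌊Real.log (2 * H) / Real.log (1 + zeta0)⌋₊
    have hsub : L ⊆ range (N + 1) := fun l hl => mem_range.2 (Nat.lt_succ_of_le (Nat.le_floor (by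
      rw [le_div_iff₀ hlb, ← Real.log_pow]
      exact Real.log_le_log (by positivity) (hL l hl).2)))
    have hcard : (L.card : ℝ) ≤ (N : ℝ) + 1 := by
      have := card_le_card hsub
      rw [card_range] at this
      exact_mod_cast this
    have hN : (N : ℝ) ≤ Real.log (2 * H) / Real.log (1 + zeta0) :=
      Nat.floor_le (div_nonneg (Real.log_nonneg (by linarith)) hlb.le)
    have hlog : Real.log (2 * H) ≤ 16 * 2 * H ^ (1 / 16 : ℝ) := by
      have h1 := Real.log_le_rpow_div (x := 2 * H) (by linarith) (show (0 : ℝ) < 1 / 16 by norm_num)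
      have h2 : (2 * H) ^ (1 / 16 : ℝ) ≤ 2 * H ^ (1 / 16 : ℝ) := by
        rw [Real.mul_rpow two_pos.le (by linarith)]
        exact mul_le_mul_of_nonneg_right (Real.rpow_le_self_of_one_le one_le_two (by norm_num))
          (by positivity)
      linarith
    have hp : 0 < H ^ (-(1 / 16) : ℝ) := Real.rpow_pos_of_pos (by linarith) _
    have hp1 : H ^ (-(1 / 16) : ℝ) ≤ 1 :=
      Real.rpow_le_one_of_one_le_of_nonpos (by linarith) (by norm_num)
    have hq : H ^ (1 / 16 : ℝ) * H ^ (-(1 / 16) : ℝ) = 1 := by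
      rw [← Real.rpow_add (by linarith)]; norm_num
    calc (L.card : ℝ) * H ^ (-(1 / 16) : ℝ)
        ≤ (16 * 2 * H ^ (1 / 16 : ℝ) / Real.log (1 + zeta0) + 1) * H ^ (-(1 / 16) : ℝ) :=
          mul_le_mul_of_nonneg_right (hcard.trans (add_le_add (hN.trans
            ((div_le_div_iff_of_pos_right hlb).2 hlog)) le_rfl)) hp.le
      _ = 16 * 2 / Real.log (1 + zeta0) * (H ^ (1 / 16 : ℝ) * H ^ (-(1 / 16) : ℝ))
            + H ^ (-(1 / 16) : ℝ) := by ring
      _ ≤ _ := by rw [hq]; linarith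

/-- The coincidences inside one cell. -/
lemma same_cells (γ μ c ε : ℝ) (h : Dioph γ μ c) (hε : Small ε) :
    ∃ (C : ℝ) (m : ℤ), 0 ≤ C ∧ ∀ (ψ : ℕ → ℝ) (S : Finset ℕ), (∀ q, 0 ≤ ψ q) →
      (∀ q ∈ S, 0 < q ∧ 0 < ψ q ∧ 1 ≤ -Real.log (ψ q)) →
      pairSum (mu ψ) (fun q r => if cls ψ q = cls ψ r then
          kerP γ ψ (fun q r => (2 : ℝ) ^ (m : ℝ) ≤ etaP ψ q r) q r
          + kerP γ ψ (fun q r => etaP ψ q r < (2 : ℝ) ^ (m : ℝ) ∧
              Real.exp (-rhoX μ ε * (1 + zeta0) ^ cls ψ q) ≤ etaP ψ q r) q r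
          + kerP γ ψ (fun q r => etaP ψ q r < (2 : ℝ) ^ (m : ℝ) ∧
              Real.exp (-rhoX μ ε * (1 + zeta0) ^ cls ψ q) ≤ etaP ψ q r) r q else 0) S S
        ≤ C * (msum (mu ψ) S + msum (mu ψ) S ^ 2) := by
  classical
  obtain ⟨Cu, hCu, hunion⟩ := union_range γ ε hε
  obtain ⟨Cc, L0, hCc, hL0, hL1, hcell⟩ := cell_range γ μ c ε h hε
  obtain ⟨m, hm, -, -⟩ := exists_cut hε 1 one_pos L0 hL0 hL1
  set Λ := (2 : ℝ) ^ (m : ℝ) with hΛ
  have hΛ0 : 0 < Λ := by positivity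
  set K := Cu * Λ ^ (-(2 * ε)) + 2 * (Cc * Λ ^ (gX - 2 * ε)) with hK
  refine ⟨K, m, by positivity, fun ψ S hψ hS => ?_⟩
  have hμ := mu_nonneg' hψ
  set M := msum (mu ψ) S with hM
  set T := fun j => S.filter (fun q => cls ψ q = j) with hT
  have hM0 : 0 ≤ M := sum_nonneg fun q _ => hμ q
  have hT0 : ∀ j, 0 ≤ msum (mu ψ) (T j) := fun j => sum_nonneg fun q _ => hμ q
  have hmaps : ∀ q ∈ S, cls ψ q ∈ S.image (cls ψ) := fun q hq => mem_image_of_mem _ hq
  have hsum : ∑ j ∈ S.image (cls ψ), msum (mu ψ) (T j) = M := sum_fiberwise_of_maps_to hmaps _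
  set KU := kerP γ ψ (fun q r => Λ ≤ etaP ψ q r) with hKU
  set KB := kerP γ ψ (fun q r => etaP ψ q r < Λ ∧
    Real.exp (-rhoX μ ε * (1 + zeta0) ^ cls ψ q) ≤ etaP ψ q r) with hKB
  have e : pairSum (mu ψ) (fun q r => if cls ψ q = cls ψ r then KU q r + KB q r + KB r q else 0) S S
      = ∑ j ∈ S.image (cls ψ), pairSum (mu ψ) (fun q r => KU q r + KB q r + KB r q) (T j) (T j) := by
    unfold pairSum
    rw [← sum_fiberwise_of_maps_to hmaps]
    refine sum_congr rfl fun j _ => sum_congr rfl fun q hq => ?_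
    obtain ⟨-, rfl⟩ := mem_filter.1 hq
    simp only [mul_ite, mul_zero, hT, sum_filter, eq_comm (a := cls ψ q)]
  rw [e]
  calc _ ≤ ∑ j ∈ S.image (cls ψ), K * (msum (mu ψ) (T j) + msum (mu ψ) (T j) ^ 2) := by
        refine sum_le_sum fun j _ => ?_
        have hΩ := omegaX hε _ (hT0 j)
        have hTS : ∀ q ∈ T j, 0 < q ∧ 0 < ψ q := fun q hq =>
          ⟨(hS q (mem_filter.1 hq).1).1, (hS q (mem_filter.1 hq).1).2.1⟩
        have b1 : pairSum (mu ψ) KU (T j) (T j)
            ≤ Cu * Λ ^ (-(2 * ε)) * (msum (mu ψ) (T j) + msum (mu ψ) (T j) ^ 2) := (hunion ψ (T j) m hψ hTS).trans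
          (mul_le_mul_of_nonneg_left hΩ (by positivity))
        have b2 : pairSum (mu ψ) KB (T j) (T j)
            ≤ Cc * Λ ^ (gX - 2 * ε) * (msum (mu ψ) (T j) + msum (mu ψ) (T j) ^ 2) := by
          refine le_trans (le_of_eq ?_) ((hcell ψ (T j) (T j) (scale j) m hψ hTS subset_rfl
            (fun q hq => ?_) (le_trans zero_le_one (one_le_scale j)) hm).trans
            (mul_le_mul_of_nonneg_left hΩ (by positivity)))
          · refine sum_congr rfl fun q hq => sum_congr rfl fun r _ => ?_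
            obtain ⟨-, rfl⟩ := mem_filter.1 hq
            rfl
          · obtain ⟨hqS, rfl⟩ := mem_filter.1 hq
            obtain ⟨h1, h2⟩ := cls_spec ψ q (hS q hqS).2.2
            rw [← Real.le_log_iff_exp_le (hS q hqS).2.1, ← Real.log_le_iff_le_exp (hS q hqS).2.1]
            constructor <;> linarith
        rw [pairSum_add, pairSum_add, pairSum_swap (mu ψ) KB (T j), hK]
        linarith
    _ ≤ K * (M + M ^ 2) := by
        rw [← mul_sum, sum_add_distrib, hsum]
        refine mul_le_mul_of_nonneg_left (add_le_add le_rfl ?_) (by positivity)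
        calc ∑ j ∈ S.image (cls ψ), msum (mu ψ) (T j) ^ 2
            ≤ ∑ j ∈ S.image (cls ψ), msum (mu ψ) (T j) * M := sum_le_sum fun j _ => by
              rw [sq]
              exact mul_le_mul_of_nonneg_left
                (sum_le_sum_of_subset_of_nonneg (filter_subset _ _) fun q _ _ => hμ q) (hT0 j)
          _ = _ := by rw [← sum_mul, hsum, sq]

/-- The coincidences `e^{-ρ s} ≤ η < 1` between different cells, `s` the larger scale. -/
lemma cross_cells (γ μ c ε a : ℝ) (h : Dioph γ μ c) (hε : Small ε) (ha : 0 < a) :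
    ∃ C : ℝ, 0 ≤ C ∧ ∀ (ψ : ℕ → ℝ) (S : Finset ℕ) (H : ℝ), (∀ q, 0 ≤ ψ q) → 3 ≤ H →
      (∀ q ∈ S, 0 < q ∧ 0 < ψ q ∧ 1 ≤ -Real.log (ψ q) ∧ Real.log q ≤ H ∧
        -Real.log (ψ q) ≤ 2 * H ∧ a * Real.log H ≤ scale (cls ψ q) ∧ 100 ≤ scale (cls ψ q)) →
      (∀ q ∈ S, ∀ r ∈ S, cls ψ q < cls ψ r → 16 * scale (cls ψ q) ≤ scale (cls ψ r)) →
      pairSum (mu ψ) (fun q r => if cls ψ q < cls ψ r then
          kerP γ ψ (fun q r => etaP ψ q r < 1 ∧
            Real.exp (-rhoX μ ε * scale (cls ψ r)) ≤ etaP ψ q r) q r else 0) S S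
        ≤ C * (msum (mu ψ) S + msum (mu ψ) S ^ 2) := by
  classical
  obtain ⟨Cx, κ, hCx, hκ, hcross⟩ := cross_range γ μ c ε h hε
  obtain ⟨Cs, hCs, hlev⟩ := level_sum hκ ha
  refine ⟨Cx * Cs, by positivity, fun ψ S H hψ hH hS hgap => ?_⟩
  have hμ := mu_nonneg' hψ
  set M := msum (mu ψ) S with hM
  have hM0 : 0 ≤ M := sum_nonneg fun q _ => hμ q
  have hmaps : ∀ r ∈ S, cls ψ r ∈ S.image (cls ψ) := fun q hq => mem_image_of_mem _ hq
  have e : pairSum (mu ψ) (fun q r => if cls ψ q < cls ψ r then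
          kerP γ ψ (fun q r => etaP ψ q r < 1 ∧
            Real.exp (-rhoX μ ε * scale (cls ψ r)) ≤ etaP ψ q r) q r else 0) S S
      = ∑ l ∈ S.image (cls ψ), pairSum (mu ψ) (kerP γ ψ (fun q r => etaP ψ q r < 1 ∧
          Real.exp (-rhoX μ ε * scale l) ≤ etaP ψ q r))
          (S.filter (fun q => cls ψ q < l)) (S.filter (fun r => cls ψ r = l)) := by
    unfold pairSum
    simp only [mul_ite, mul_zero]
    rw [sum_comm, ← sum_fiberwise_of_maps_to hmaps]
    refine sum_congr rfl fun l _ => ?_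
    rw [sum_comm (s := S.filter (fun q => cls ψ q < l))]
    refine sum_congr rfl fun r hr => ?_
    obtain ⟨-, rfl⟩ := mem_filter.1 hr
    rw [← sum_filter]
    rfl
  rw [e]
  calc _ ≤ ∑ l ∈ S.image (cls ψ), Cx * Real.sqrt (wgt κ H (scale l)) * (M + M ^ 2) := by
        refine sum_le_sum fun l hl => ?_
        obtain ⟨r0, hr0, rfl⟩ := mem_image.1 hl
        obtain ⟨-, -, hL0, -, hLH, -, h100⟩ := hS r0 hr0
        have hs0 := (cls_spec ψ r0 hL0).1
        set l := cls ψ r0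
        set U := S.filter (fun q => cls ψ q < l) ∪ S.filter (fun r => cls ψ r = l) with hU
        have hUS : U ⊆ S := union_subset (filter_subset _ _) (filter_subset _ _)
        refine (hcross ψ _ _ H (scale l / 16) (scale l) hψ
          (fun q hq => ⟨(hS q (hUS hq)).1, (hS q (hUS hq)).2.1⟩) (fun q hq => ?_) (fun r hr => ?_)
          hH (by linarith) (by linarith) h100).trans ?_
        · obtain ⟨hqS, hlt⟩ := mem_filter.1 hq
          obtain ⟨-, hp, hL, hlH, -⟩ := hS q hqS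
          refine ⟨hlH, ?_⟩
          rw [← Real.le_log_iff_exp_le hp]
          have h1 := (cls_spec ψ q hL).2
          have h2 := hgap q hqS r0 hr0 hlt
          have h3 : (1 + zeta0) * scale (cls ψ q) ≤ 2 * scale (cls ψ q) :=
            mul_le_mul_of_nonneg_right (by norm_num [zeta0]) (le_trans zero_le_one (one_le_scale _))
          linarith
        · obtain ⟨hrS, hrl⟩ := mem_filter.1 hr
          obtain ⟨-, hp, hL, -⟩ := hS r hrS
          obtain ⟨h1, h2⟩ := cls_spec ψ r hL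
          rw [hrl] at h1 h2
          rw [← Real.le_log_iff_exp_le hp, ← Real.log_le_iff_le_exp hp]
          constructor <;> linarith
        · have hUM : msum (mu ψ) U ≤ M := sum_le_sum_of_subset_of_nonneg hUS fun q _ _ => hμ q
          have hU0 : 0 ≤ msum (mu ψ) U := sum_nonneg fun q _ => hμ q
          gcongr
    _ = Cx * (∑ l ∈ S.image (cls ψ), Real.sqrt (wgt κ H (scale l))) * (M + M ^ 2) := by
        rw [mul_sum, sum_mul]
    _ ≤ _ := by
        refine mul_le_mul_of_nonneg_right (mul_le_mul_of_nonneg_left ?_ hCx) (by positivity)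
        refine hlev _ H hH fun l hl => ?_
        obtain ⟨r, hr, rfl⟩ := mem_image.1 hl
        obtain ⟨-, -, hL, -, hLH, hlo, -⟩ := hS r hr
        exact ⟨hlo, (cls_spec ψ r hL).1.trans hLH⟩

/-- Every coincidence is of one of the kinds. -/
lemma cells_pair (γ μ ε Λ : ℝ) (hμ : 1 ≤ μ) (hε : Small ε) (ψ : ℕ → ℝ) (hψ : ∀ q, 0 ≤ ψ q)
    (S : Finset ℕ) (hS : ∀ q ∈ S, 0 < q ∧ 0 < ψ q ∧ 1 ≤ -Real.log (ψ q))
    (q : ℕ) (hq : q ∈ S) (r : ℕ) (hr : r ∈ S) :
    kerP γ ψ (fun _ _ => True) q r ≤ 1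
      + (if cls ψ q = cls ψ r then kerP γ ψ (fun q r => Λ ≤ etaP ψ q r) q r
          + kerP γ ψ (fun q r => etaP ψ q r < Λ ∧
              Real.exp (-rhoX μ ε * (1 + zeta0) ^ cls ψ q) ≤ etaP ψ q r) q r
          + kerP γ ψ (fun q r => etaP ψ q r < Λ ∧
              Real.exp (-rhoX μ ε * (1 + zeta0) ^ cls ψ q) ≤ etaP ψ q r) r q else 0)
      + (if cls ψ q < cls ψ r then kerP γ ψ (fun q r => etaP ψ q r < 1 ∧
            Real.exp (-rhoX μ ε * scale (cls ψ r)) ≤ etaP ψ q r) q r else 0)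
      + (if cls ψ r < cls ψ q then kerP γ ψ (fun q r => etaP ψ q r < 1 ∧
            Real.exp (-rhoX μ ε * scale (cls ψ r)) ≤ etaP ψ q r) r q else 0)
      + kerTop γ ψ (rhoX μ ε / (1 + zeta0)) q r := by
  classical
  have hT := kerTop_nonneg γ ψ hψ (rhoX μ ε / (1 + zeta0)) q r
  have hz : (0 : ℝ) < 1 + zeta0 := by norm_num [zeta0]
  rcases lt_trichotomy (cls ψ q) (cls ψ r) with hlt | heq | hgt
  swap
  · rw [if_pos heq, if_neg (by omega), if_neg (by omega)]
    have := pair_bound γ μ ε Λ hμ hε ψ hψ S (cls ψ) (fun q hq => ⟨(hS q hq).1, (hS q hq).2.1⟩)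
      (fun q hq => (cls_spec ψ q (hS q hq).2.2).2) q hq r hr
    linarith
  -- two cells
  all_goals
    rw [if_neg (show cls ψ q ≠ cls ψ r by omega)]
    by_cases hN : q ≠ r ∧ Near γ (etaP ψ q r) q r
    swap
    · rw [show kerP γ ψ (fun _ _ => True) q r = 0 from if_neg fun h => hN ⟨h.1, h.2.1⟩]
      have x1 := kerP_nonneg γ ψ hψ (fun q r => etaP ψ q r < 1 ∧
            Real.exp (-rhoX μ ε * scale (cls ψ r)) ≤ etaP ψ q r) q r
      have x2 := kerP_nonneg γ ψ hψ (fun q r => etaP ψ q r < 1 ∧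
            Real.exp (-rhoX μ ε * scale (cls ψ r)) ≤ etaP ψ q r) r q
      split_ifs <;> linarith
    obtain ⟨hne, hnear⟩ := hN
    rw [show kerP γ ψ (fun _ _ => True) q r = 1 / etaP ψ q r from if_pos ⟨hne, hnear, trivial⟩]
    have hp : 0 < etaP ψ q r := P028L.etaP_pos (hS q hq).1 (hS r hr).1 (hS q hq).2.1 (hS r hr).2.1
    have key : ∀ p ∈ S, etaP ψ q r < Real.exp (-rhoX μ ε * scale (cls ψ p)) →
        etaP ψ q r ≤ ψ p ^ (rhoX μ ε / (1 + zeta0)) := by
      intro p hp hlt'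
      have hρ : 0 ≤ rhoX μ ε := by (have := hε.1; unfold rhoX; positivity)
      refine hlt'.le.trans ?_
      rw [Real.rpow_def_of_pos (hS p hp).2.1]
      refine Real.exp_le_exp.2 ?_
      rw [← mul_div_assoc, le_div_iff₀ hz]
      linarith [mul_le_mul_of_nonneg_left (cls_spec ψ p (hS p hp).2.2).2 hρ]
  · rw [if_pos hlt, if_neg (show ¬ cls ψ r < cls ψ q by omega)]
    by_cases h1 : 1 ≤ etaP ψ q r
    · have := (div_le_one hp).2 h1
      have := kerP_nonneg γ ψ hψ (fun q r => etaP ψ q r < 1 ∧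
            Real.exp (-rhoX μ ε * scale (cls ψ r)) ≤ etaP ψ q r) q r
      linarith
    rw [not_le] at h1
    by_cases h2 : Real.exp (-rhoX μ ε * scale (cls ψ r)) ≤ etaP ψ q r
    · have : kerP γ ψ (fun q r => etaP ψ q r < 1 ∧
            Real.exp (-rhoX μ ε * scale (cls ψ r)) ≤ etaP ψ q r) q r = 1 / etaP ψ q r :=
        if_pos ⟨hne, hnear, h1, h2⟩
      linarith
    rw [not_le] at h2
    have := kerP_nonneg γ ψ hψ (fun q r => etaP ψ q r < 1 ∧
            Real.exp (-rhoX μ ε * scale (cls ψ r)) ≤ etaP ψ q r) q r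
    have : kerTop γ ψ (rhoX μ ε / (1 + zeta0)) q r = 1 / etaP ψ q r := by
      refine if_pos ⟨hne, hnear, ?_⟩
      rcases min_choice (ψ q) (ψ r) with e | e <;> rw [e]
      · refine key q hq (h2.trans_le (Real.exp_le_exp.2 ?_))
        have hs : scale (cls ψ q) ≤ scale (cls ψ r) :=
          pow_le_pow_right₀ (by norm_num [zeta0]) hlt.le
        have hρ : 0 ≤ rhoX μ ε := by (have := hε.1; unfold rhoX; positivity)
        linarith [mul_le_mul_of_nonneg_left hs hρ]
      · exact key r hr h2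
    linarith
  · rw [if_neg (show ¬ cls ψ q < cls ψ r by omega), if_pos hgt]
    have e : etaP ψ r q = etaP ψ q r := etaP_swap ψ q r
    by_cases h1 : 1 ≤ etaP ψ q r
    · have := (div_le_one hp).2 h1
      have := kerP_nonneg γ ψ hψ (fun q r => etaP ψ q r < 1 ∧
            Real.exp (-rhoX μ ε * scale (cls ψ r)) ≤ etaP ψ q r) r q
      linarith
    rw [not_le] at h1
    by_cases h2 : Real.exp (-rhoX μ ε * scale (cls ψ q)) ≤ etaP ψ q r
    · have : kerP γ ψ (fun q r => etaP ψ q r < 1 ∧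
            Real.exp (-rhoX μ ε * scale (cls ψ r)) ≤ etaP ψ q r) r q = 1 / etaP ψ r q :=
        if_pos ⟨hne.symm, by rw [e]; exact (near_swap γ _ q r).2 hnear, by rw [e]; exact h1,
          by rw [e]; exact h2⟩
      rw [e] at this
      linarith
    rw [not_le] at h2
    have := kerP_nonneg γ ψ hψ (fun q r => etaP ψ q r < 1 ∧
            Real.exp (-rhoX μ ε * scale (cls ψ r)) ≤ etaP ψ q r) r q
    have : kerTop γ ψ (rhoX μ ε / (1 + zeta0)) q r = 1 / etaP ψ q r := by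
      refine if_pos ⟨hne, hnear, ?_⟩
      rcases min_choice (ψ q) (ψ r) with e | e <;> rw [e]
      · exact key q hq h2
      · refine key r hr (h2.trans_le (Real.exp_le_exp.2 ?_))
        have hs : scale (cls ψ r) ≤ scale (cls ψ q) :=
          pow_le_pow_right₀ (by norm_num [zeta0]) hgt.le
        have hρ : 0 ≤ rhoX μ ε := by (have := hε.1; unfold rhoX; positivity)
        linarith [mul_le_mul_of_nonneg_left hs hρ]
    linarith

/-- The second moment of one slice. -/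
theorem slice_moment (γ μ c a : ℝ) (h : Dioph γ μ c) (ha : 0 < a) :
    ∃ C : ℝ, 0 ≤ C ∧ ∀ (ψ : ℕ → ℝ) (S : Finset ℕ) (H : ℝ), (∀ q, 0 ≤ ψ q) → 3 ≤ H →
      (∀ q ∈ S, 0 < q ∧ 0 < ψ q ∧ 1 ≤ -Real.log (ψ q) ∧ Real.log q ≤ H ∧
        -Real.log (ψ q) ≤ 2 * H ∧ a * Real.log H ≤ scale (cls ψ q) ∧ 100 ≤ scale (cls ψ q)) →
      (∀ q ∈ S, ∀ r ∈ S, cls ψ q < cls ψ r → 16 * scale (cls ψ q) ≤ scale (cls ψ r)) →
      ∫ x in Set.Ico (0 : ℝ) 1, (∑ q ∈ S, fq γ ψ 1 0 q x) ^ 2
        ≤ C * (msum (mu ψ) S + msum (mu ψ) S ^ 2) := by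
  classical
  set ε : ℝ := 1 / 100000 with hεd
  have hε : Small ε := ⟨by norm_num [hεd], le_of_eq hεd⟩
  obtain ⟨Cs, m, hCs, hsame⟩ := same_cells γ μ c ε h hε
  obtain ⟨Cx, hCx, hcross⟩ := cross_cells γ μ c ε a h hε ha
  have hμ1 := h.1
  have hρ : 0 < rhoX μ ε / (1 + zeta0) := by have := hε.1; unfold rhoX zeta0; positivity
  obtain ⟨Ct, hCt, htop⟩ := top_pairs γ μ c _ h hρ
  refine ⟨2 + 12 + 4 * (Cs + 2 * Cx + Ct), by positivity, ?_⟩
  intro ψ S H hψ hH hS hgap
  set M := msum (mu ψ) S with hM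
  have hμ : ∀ q, 0 ≤ mu ψ q := mu_nonneg' hψ
  have hM0 : 0 ≤ M := sum_nonneg fun q _ => hμ q
  have hS3 : ∀ q ∈ S, 0 < q ∧ 0 < ψ q ∧ 1 ≤ -Real.log (ψ q) := fun q hq =>
    ⟨(hS q hq).1, (hS q hq).2.1, (hS q hq).2.2.1⟩
  have hhalf : ∀ q ∈ S, 0 < q ∧ 0 < ψ q ∧ ψ q ≤ 1 / 2 := fun q hq => by
    refine ⟨(hS3 q hq).1, (hS3 q hq).2.1, ?_⟩
    refine ((Real.log_le_iff_le_exp (hS3 q hq).2.1).1
      (show Real.log (ψ q) ≤ -1 by linarith [(hS3 q hq).2.2])).trans ?_
    rw [Real.exp_neg, one_div]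
    exact inv_anti₀ two_pos (by linarith [Real.add_one_le_exp (1 : ℝ)])
  set Λ := (2 : ℝ) ^ (m : ℝ) with hΛ
  set KU := kerP γ ψ (fun q r => Λ ≤ etaP ψ q r) with hKU
  set KB := kerP γ ψ (fun q r => etaP ψ q r < Λ ∧
    Real.exp (-rhoX μ ε * (1 + zeta0) ^ cls ψ q) ≤ etaP ψ q r) with hKB
  set KS := fun q r => if cls ψ q = cls ψ r then KU q r + KB q r + KB r q else 0 with hKS
  set KX := fun q r => if cls ψ q < cls ψ r then kerP γ ψ (fun q r => etaP ψ q r < 1 ∧
            Real.exp (-rhoX μ ε * scale (cls ψ r)) ≤ etaP ψ q r) q r else 0 with hKX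
  set KT := kerTop γ ψ (rhoX μ ε / (1 + zeta0)) with hKT
  have h0S : ∀ q r, 0 ≤ KS q r := fun q r => by
    simp only [hKS]
    split_ifs
    · exact add_nonneg (add_nonneg (kerP_nonneg γ ψ hψ _ q r) (kerP_nonneg γ ψ hψ _ q r))
        (kerP_nonneg γ ψ hψ _ r q)
    · exact le_rfl
  have h0X : ∀ q r, 0 ≤ KX q r := fun q r => by
    simp only [hKX]
    split_ifs
    · exact kerP_nonneg γ ψ hψ _ q r
    · exact le_rfl
  set I := fun q r => ∫ x in Set.Ico (0 : ℝ) 1, fq γ ψ 1 0 q x * fq γ ψ 1 0 r x with hI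
  have hpair : ∀ q ∈ S, ∀ r ∈ S, I q r ≤ (if q = r then 2 * mu ψ q else 0) +
      4 * (mu ψ q * mu ψ r * (3 + KS q r + KX q r + KX r q + KT q r)) := by
    intro q hq r hr
    have hμμ : 0 ≤ mu ψ q * mu ψ r := mul_nonneg (hμ q) (hμ r)
    by_cases hqr : q = r
    · subst hqr
      rw [if_pos rfl]
      refine le_add_of_le_of_nonneg ?_ (mul_nonneg (by norm_num) (mul_nonneg hμμ ?_))
      · rw [← integral_fq γ ψ 1 0 q isCoprime_one_left (hhalf q hq).1 (hψ q) (hhalf q hq).2.2]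
        refine integral_mono_of_nonneg (Filter.Eventually.of_forall fun x =>
          mul_nonneg (fq_nonneg _ _ _ _ _ _) (fq_nonneg _ _ _ _ _ _)) ?_
          (Filter.Eventually.of_forall fun x => mul_le_of_le_one_left (fq_nonneg _ _ _ _ _ _)
            (fq_le_one _ _ _ _ _ _))
        refine Integrable.mono' (g := fun _ => (1 : ℝ)) (integrableOn_const (by simp))
          (fq_measurable γ ψ 1 0 q).aestronglyMeasurable (Filter.Eventually.of_forall fun x => ?_)
        rw [Real.norm_eq_abs, abs_of_nonneg (fq_nonneg _ _ _ _ _ _)]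
        exact fq_le_one _ _ _ _ _ _
      · linarith [h0S q q, h0X q q, kerTop_nonneg γ ψ hψ (rhoX μ ε / (1 + zeta0)) q q]
    · rw [if_neg hqr, zero_add]
      have h1 := overlapX γ ψ hψ q r (hhalf q hq).1 (hhalf r hr).1 hqr (hhalf q hq).2.1
        (hhalf q hq).2.2 (hhalf r hr).2.1 (hhalf r hr).2.2
      refine h1.trans ?_
      rw [mul_assoc (4 : ℝ)]
      refine mul_le_mul_of_nonneg_left (mul_le_mul_of_nonneg_left ?_ hμμ) (by norm_num)
      have h2 := cells_pair γ μ ε Λ hμ1 hε ψ hψ S hS3 q hq r hr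
      simp only [hKS, hKX, hKT, hKU, hKB]
      linarith
  have hexp : ∫ x in Set.Ico (0 : ℝ) 1, (∑ q ∈ S, fq γ ψ 1 0 q x) ^ 2
      = ∑ q ∈ S, ∑ r ∈ S, I q r := by
    simp_rw [sq, sum_mul_sum]
    rw [integral_finsetSum _ fun q _ => integrable_finsetSum _ fun r _ =>
      integrableOn_fq_mul γ ψ 1 0 q r]
    exact sum_congr rfl fun q _ =>
      integral_finsetSum _ fun r _ => integrableOn_fq_mul γ ψ 1 0 q r
  have htot : pairSum (mu ψ) (fun _ _ => (1 : ℝ)) S S = M * M := by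
    simp only [pairSum, mul_one, hM, msum, sum_mul_sum]
  have bS : pairSum (mu ψ) KS S S ≤ Cs * (M + M ^ 2) := hsame ψ S hψ hS3
  have bX : pairSum (mu ψ) KX S S ≤ Cx * (M + M ^ 2) := hcross ψ S H hψ hH hS hgap
  have bT : pairSum (mu ψ) KT S S ≤ Ct * (M + M ^ 2) := htop ψ S hψ hhalf
  have hdiag : ∑ q ∈ S, ∑ r ∈ S, (if q = r then 2 * mu ψ q else 0) = 2 * M := by
    rw [hM, msum, mul_sum]
    exact sum_congr rfl fun q hq => by rw [sum_ite_eq, if_pos hq]
  rw [hexp]
  calc ∑ q ∈ S, ∑ r ∈ S, I q r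
      ≤ ∑ q ∈ S, ∑ r ∈ S, ((if q = r then 2 * mu ψ q else 0) +
          4 * (mu ψ q * mu ψ r * (3 + KS q r + KX q r + KX r q + KT q r))) :=
        sum_le_sum fun q hq => sum_le_sum fun r hr => hpair q hq r hr
    _ = 2 * M + 4 * (3 * (M * M) + pairSum (mu ψ) KS S S + pairSum (mu ψ) KX S S
          + pairSum (mu ψ) KX S S + pairSum (mu ψ) KT S S) := by
        have e : pairSum (mu ψ) (fun q r => 3 * 1 + KS q r + KX q r + KX r q + KT q r) S S
            = 3 * (M * M) + pairSum (mu ψ) KS S S + pairSum (mu ψ) KX S S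
              + pairSum (mu ψ) KX S S + pairSum (mu ψ) KT S S := by
          rw [pairSum_add, pairSum_add, pairSum_add, pairSum_add, midPairSum_smul, htot,
            pairSum_swap (mu ψ) KX S]
        rw [← e, ← hdiag]
        simp only [pairSum, sum_add_distrib, mul_sum, mul_one]
    _ ≤ _ := by
        rw [← sq]
        linarith [sq_nonneg M]

end Vale.Agent.P028M
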