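import Vale.Agent.P028M.State

/-! P028M module CROSS: the coincidences `e^{-ρ s} ≤ η < 1` between a level `t` and a cell of scale `s ≫ t`.
The density gain of the small `η` and the gain of the two levels combine by a geometric mean. -/

namespace Vale.Agent.P028M

open Finset Vale.Agent.P028 Vale.Agent.P028X

/-- The exponent of `η` left after the geometric mean. -/
noncomputable def kapC (ε : ℝ) : ℝ := gX / 2 - 5 * ε / 2

lemma kapC_mem {ε : ℝ} (hε : Small ε) : 0 < kapC ε ∧ kapC ε ≤ 1 / 100 := by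
  unfold kapC gX
  constructor <;> linarith [hε.1, hε.2]

lemma inCls_swap (ψ : ℕ → ℝ) (y1 y2 : ℝ) (q r : ℕ) : InCls ψ y2 y1 r q ↔ InCls ψ y1 y2 q r := by
  unfold InCls
  rw [vv_swap q r, uu_swap q r]
  exact and_comm

lemma clsI_swap (ψ : ℕ → ℝ) (y1 y2 : ℝ) (q r : ℕ) : clsI ψ y2 y1 r q = clsI ψ y1 y2 q r := by
  classical
  exact if_congr (inCls_swap ψ y1 y2 q r) rfl rfl

lemma le_geom {E A B : ℝ} (hE : 0 ≤ E) (hA : E ≤ A) (hB : E ≤ B) : E ≤ Real.sqrt (A * B) :=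
  Real.le_sqrt_of_sq_le (by rw [sq]; exact mul_le_mul hA hB hE (hE.trans hA))

lemma exp_le_sqrt_wgt {κ c H s : ℝ} (hH : 3 ≤ H) (hs : 0 ≤ s) (hκ : 0 ≤ κ) (hc : κ ≤ 2 * c) :
    Real.exp (-(c * s)) ≤ Real.sqrt (wgt κ H s) := by
  rw [show -(c * s) = -(2 * c * s) / 2 by ring, Real.exp_half]
  exact Real.sqrt_le_sqrt (exp_le_wgt hH hs hκ hc)

lemma geo_pow {r Y ε : ℝ} (hr0 : 0 < r) (hr1 : r ≤ 1) (hY : 0 < Y) (hε : Small ε) :
    Real.sqrt (r ^ (1 / 2 - ε) * Y ^ (1 + gX - 2 * ε + (1 - 3 * ε)))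
      ≤ r ^ (1 / 10 : ℝ) * Y ^ (1 + kapC ε) := by
  rw [Real.sqrt_mul (Real.rpow_nonneg hr0.le _), Real.sqrt_eq_rpow, Real.sqrt_eq_rpow,
    ← Real.rpow_mul hr0.le, ← Real.rpow_mul hY.le]
  refine mul_le_mul (Real.rpow_le_rpow_of_exponent_ge hr0 hr1 (by linarith [hε.1, hε.2]))
    (le_of_eq ?_) (Real.rpow_nonneg hY.le _) (Real.rpow_nonneg hr0.le _)
  congr 1
  unfold kapC; ring

lemma imbal_pow {μ r Y ε κ H s : ℝ} (hε : Small ε) (hρ1 : rhoX μ ε ≤ 1 / 2000000) (hr0 : 0 < r)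
    (hr : r ≤ Real.exp (-nuM * s)) (hlo : Real.exp (-rhoX μ ε * s) ≤ Y) (hH : 3 ≤ H) (hs : 0 ≤ s)
    (hκ : 0 ≤ κ) (hκ1 : κ ≤ 1 / 1000000) :
    r ^ (1 / 2 - ε) * Y ^ (-(2 * ε)) ≤ r ^ (1 / 10 : ℝ) * Y ^ kapC ε * Real.sqrt (wgt κ H s) := by
  have hY0 : 0 < Y := (Real.exp_pos _).trans_le hlo
  obtain ⟨hk0, hk1⟩ := kapC_mem hε
  have he := hε.1
  have he1 := hε.2
  rw [show 1 / 2 - ε = 1 / 10 + (2 / 5 - ε) by ring, Real.rpow_add hr0,
    show -(2 * ε) = kapC ε + -(2 * ε + kapC ε) by ring, Real.rpow_add hY0,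
    mul_mul_mul_comm]
  refine mul_le_mul_of_nonneg_left ?_ (by positivity)
  calc r ^ (2 / 5 - ε) * Y ^ (-(2 * ε + kapC ε))
      ≤ Real.exp (-nuM * s) ^ (2 / 5 - ε) * Real.exp (-rhoX μ ε * s) ^ (-(2 * ε + kapC ε)) :=
        mul_le_mul (Real.rpow_le_rpow hr0.le hr (by linarith))
          (Real.rpow_le_rpow_of_nonpos (Real.exp_pos _) hlo (by linarith))
          (by positivity) (by positivity)
    _ ≤ Real.exp (-(1 / 1000000 * s)) := by
        rw [← Real.exp_mul, ← Real.exp_mul, ← Real.exp_add]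
        refine Real.exp_le_exp.2 ?_
        have h1 : rhoX μ ε * (2 * ε + kapC ε) ≤ 1 / 2000000 * 1 :=
          mul_le_mul hρ1 (by linarith) (by linarith) (by norm_num)
        have h2 := mul_le_mul_of_nonneg_right h1 hs
        have h3 : 3 / 10 * s ≤ (2 / 5 - ε) * s := mul_le_mul_of_nonneg_right (by linarith) hs
        unfold nuM
        linarith
    _ ≤ _ := exp_le_sqrt_wgt hH hs hκ (hκ1.trans (by norm_num))

/-- One class, near and of size at most `Y`, between a level `t` and a cell `s`. -/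
lemma cross_class (γ μ c ε : ℝ) (h : Dioph γ μ c) (hε : Small ε) :
    ∃ C κ : ℝ, 0 ≤ C ∧ 0 < κ ∧ ∀ (ψ : ℕ → ℝ) (V W : Finset ℕ) (H t s y1 y2 Y : ℝ),
      (∀ q, 0 ≤ ψ q) → (∀ q ∈ V ∪ W, 0 < q ∧ 0 < ψ q) →
      (∀ q ∈ V, Real.log q ≤ H ∧ Real.exp (-(2 * t)) ≤ ψ q) →
      (∀ r ∈ W, Real.exp (-(1 + zeta0) * s) ≤ ψ r ∧ ψ r ≤ Real.exp (-s)) →
      3 ≤ H → t ≤ 2 * H → 16 * t ≤ s → 100 ≤ s → 0 < y1 → 0 < y2 → Y = 2 * max y1 y2 →
      Y ≤ 4 → Real.exp (-rhoX μ ε * s) ≤ Y →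
      4 / Y * pairSum (mu ψ) (fun q r => bb (Near γ Y q r) * clsI ψ y1 y2 q r) V W
        ≤ C * Real.sqrt (wgt κ H s) * (msum (mu ψ) (V ∪ W) + msum (mu ψ) (V ∪ W) ^ 2)
          * ((y1 * y2 / Y ^ 2) ^ (1 / 10 : ℝ) * Y ^ kapC ε) := by
  classical
  obtain ⟨Cl, κ0, hCl, hκ0, hlevel⟩ := level_class hε
  obtain ⟨Cb, hCb, hcls⟩ := cls_boundX hε
  obtain ⟨Cd, T0, t0, hCd, hT0, hdens⟩ := density_gain γ μ c ε h hε
  have he := hε.1
  have he1 := hε.2
  have hρ : 0 < rhoX μ ε := by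
    have := h.1
    unfold rhoX
    positivity
  have hρ1 : rhoX μ ε ≤ 1 / 2000000 := by
    have := h.1
    unfold rhoX
    rw [div_le_iff₀ (by linarith)]
    linarith
  obtain ⟨hk0, hk1⟩ := kapC_mem hε
  set T1 := max T0 (Real.exp (rhoX μ ε * t0)) with hT1d
  have hT1 : 1 ≤ T1 := hT0.trans (le_max_left _ _)
  set κ := min κ0 (1 / 1000000) with hκ
  have hκp : 0 < κ := lt_min hκ0 (by norm_num)
  set D0 := Cd + Cb * T1 ^ gX with hD0
  refine ⟨4 * (Real.sqrt (D0 * Cl) + Cb), κ, by positivity, hκp, ?_⟩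
  intro ψ V W H t s y1 y2 Y hψ hS hV hW hH htH hts hs hy1 hy2 hY hY4 hlo
  have hμ := mu_nonneg' hψ
  set M := msum (mu ψ) (V ∪ W) with hM
  have hM0 : 0 ≤ M := sum_nonneg fun q _ => hμ q
  set N := M + M ^ 2 with hN
  have hN0 : 0 ≤ N := by positivity
  obtain ⟨hY0, hr0, hPeq, hrb⟩ := ratioX hε y1 y2 Y hy1 hy2 hY
  set r0 := y1 * y2 / Y ^ 2 with hr0d
  have hy1Y : y1 ≤ Y := by linarith [le_max_left y1 y2]
  have hy2Y : y2 ≤ Y := by linarith [le_max_right y1 y2]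
  have hr1 : r0 ≤ 1 := by
    rw [hr0d, div_le_one (by positivity), sq]
    exact mul_le_mul hy1Y hy2Y hy2.le hY0.le
  set w := wgt κ H s with hw
  have hw0 : 0 < w := wgt_pos hH
  set E := pairSum (mu ψ) (fun q r => bb (Near γ Y q r) * clsI ψ y1 y2 q r) V W with hE
  have hE0 : 0 ≤ E := sum_nonneg fun q _ => sum_nonneg fun r _ =>
    mul_nonneg (mul_nonneg (hμ q) (hμ r)) (mul_nonneg (bb_nonneg _) (cls_mem ψ y1 y2 q r).1)
  have hΩ : ∀ U U' : Finset ℕ, U ⊆ V ∪ W → U' ⊆ V ∪ W →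
      (msum (mu ψ) U * msum (mu ψ) U') ^ aX ε ≤ N := fun U U' hU hU' =>
    (Real.rpow_le_rpow (mul_nonneg (sum_nonneg fun q _ => hμ q) (sum_nonneg fun q _ => hμ q))
      (mul_le_mul (sum_le_sum_of_subset_of_nonneg hU fun q _ _ => hμ q)
        (sum_le_sum_of_subset_of_nonneg hU' fun q _ _ => hμ q) (sum_nonneg fun q _ => hμ q) hM0)
      (aX_pos hε).le).trans (omegaX hε M hM0)
  have hEc : E ≤ pairSum (mu ψ) (clsI ψ y1 y2) V W := pairSum_mono hμ fun q _ r _ =>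
    mul_le_of_le_one_left (cls_mem ψ y1 y2 q r).1 (bb_le_one _)
  have hEb : E ≤ Cb * (r0 ^ (1 / 2 - ε) * Y ^ (1 - 2 * ε)) * N := by
    refine hEc.trans ((hcls ψ (V ∪ W) V W y1 y2 hψ hS subset_union_left subset_union_right hy1
      hy2).trans ?_)
    rw [hPeq, show 2 * (1 / 2 - ε) = 1 - 2 * ε by ring]
    exact mul_le_mul_of_nonneg_left (hΩ V W subset_union_left subset_union_right) (by positivity)
  rcases le_or_gt (Y * Real.exp (-nuM * s)) y2 with hbal | hbal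
  · -- balanced
    have hlo2 : Real.exp (-(s / 10)) ≤ y2 := by
      refine le_trans ?_ ((mul_le_mul_of_nonneg_right hlo (Real.exp_pos _).le).trans hbal)
      rw [← Real.exp_add]
      refine Real.exp_le_exp.2 ?_
      have := mul_le_mul_of_nonneg_right hρ1 (show 0 ≤ s by linarith)
      unfold nuM
      linarith
    have hR : E ≤ Cl * Y ^ (1 - 3 * ε) * w * N := by
      refine hEc.trans ((hlevel ψ V W H t s y1 y2 Y hψ hS hV (fun r hr => (hW r hr).2) hH htH hts hs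
        hy1 hy2 hy1Y hy2Y hY4 hlo2).trans ?_)
      gcongr
      exact wgt_anti hH (by linarith) (min_le_left _ _)
    have hD : E ≤ D0 * (r0 ^ (1 / 2 - ε) * Y ^ (1 + gX - 2 * ε)) * N := by
      by_cases hsm : Y * T1 ≤ 1
      · have hst : t0 ≤ s := by
          have h1 : Real.exp (-rhoX μ ε * s) * Real.exp (rhoX μ ε * t0) ≤ 1 :=
            (mul_le_mul hlo (le_max_right _ _) (Real.exp_pos _).le hY0.le).trans hsm
          rw [← Real.exp_add, Real.exp_le_one_iff] at h1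
          by_contra hc
          nlinarith [not_le.1 hc]
        have hgain := hdens ψ (V ∪ W) W s Y y2 y1 hst hψ hS subset_union_right hW hlo
          ((mul_le_mul_of_nonneg_left (le_max_left _ _) hY0.le).trans hsm) hy1 hbal hy2Y
        have e : E = pairSum (mu ψ) (fun r q => bb (Near γ Y r q) * clsI ψ y2 y1 r q) W V := by
          rw [hE]
          unfold pairSum
          rw [sum_comm]
          refine sum_congr rfl fun r _ => sum_congr rfl fun q _ => ?_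
          dsimp only
          rw [clsI_swap ψ y1 y2 q r, show Near γ Y r q = Near γ Y q r from propext (near_swap γ Y q r)]
          ring
        rw [e]
        refine (le_trans ?_ hgain).trans ?_
        · exact sum_le_sum fun r _ => sum_le_sum_of_subset_of_nonneg subset_union_left
            fun q _ _ => mul_nonneg (mul_nonneg (hμ r) (hμ q))
              (mul_nonneg (bb_nonneg _) (cls_mem ψ y2 y1 r q).1)
        · rw [mul_comm y2 y1, hPeq]
          calc Cd * Y ^ gX * (r0 ^ (1 / 2 - ε) * Y ^ (2 * (1 / 2 - ε)))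
                * (msum (mu ψ) W * msum (mu ψ) (V ∪ W)) ^ aX ε
              ≤ Cd * Y ^ gX * (r0 ^ (1 / 2 - ε) * Y ^ (2 * (1 / 2 - ε))) * N :=
                mul_le_mul_of_nonneg_left (hΩ W (V ∪ W) subset_union_right subset_rfl) (by positivity)
            _ = Cd * (r0 ^ (1 / 2 - ε) * Y ^ (1 + gX - 2 * ε)) * N := by
                rw [show 1 + gX - 2 * ε = gX + 2 * (1 / 2 - ε) by ring, Real.rpow_add hY0]; ring
            _ ≤ _ := by
                gcongr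
                exact le_add_of_nonneg_right (by positivity)
      · refine hEb.trans ?_
        gcongr ?_ * N
        calc Cb * (r0 ^ (1 / 2 - ε) * Y ^ (1 - 2 * ε))
            ≤ Cb * (r0 ^ (1 / 2 - ε) * Y ^ (1 - 2 * ε)) * (Y * T1) ^ gX :=
              le_mul_of_one_le_right (by positivity)
                (Real.one_le_rpow (not_le.1 hsm).le (by unfold gX; norm_num))
          _ = Cb * T1 ^ gX * (r0 ^ (1 / 2 - ε) * Y ^ (1 + gX - 2 * ε)) := by
              rw [Real.mul_rpow hY0.le (by linarith), show 1 + gX - 2 * ε = gX + (1 - 2 * ε) by ring,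
                Real.rpow_add hY0]
              ring
          _ ≤ _ := by
              gcongr
              exact le_add_of_nonneg_left (by positivity)
    have hgeo : E ≤ Real.sqrt (D0 * Cl) * Real.sqrt w * N *
        (r0 ^ (1 / 10 : ℝ) * Y ^ (1 + kapC ε)) := by
      refine (le_geom hE0 hD hR).trans ?_
      rw [show D0 * (r0 ^ (1 / 2 - ε) * Y ^ (1 + gX - 2 * ε)) * N * (Cl * Y ^ (1 - 3 * ε) * w * N)
        = D0 * Cl * (w * (N * N)) * (r0 ^ (1 / 2 - ε) * (Y ^ (1 + gX - 2 * ε) * Y ^ (1 - 3 * ε)))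
        by ring, ← Real.rpow_add hY0,
        Real.sqrt_mul (by positivity), Real.sqrt_mul (by positivity),
        Real.sqrt_mul hw0.le, Real.sqrt_mul_self hN0]
      rw [← mul_assoc (Real.sqrt (D0 * Cl)) (Real.sqrt w) N]
      refine mul_le_mul_of_nonneg_left (geo_pow hr0 hr1 hY0 hε) (by positivity)
    calc 4 / Y * E ≤ 4 / Y * (Real.sqrt (D0 * Cl) * Real.sqrt w * N *
          (r0 ^ (1 / 10 : ℝ) * Y ^ (1 + kapC ε))) := mul_le_mul_of_nonneg_left hgeo (by positivity)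
      _ = 4 * Real.sqrt (D0 * Cl) * Real.sqrt w * N * (r0 ^ (1 / 10 : ℝ) * Y ^ kapC ε) := by
          rw [Real.rpow_add hY0, Real.rpow_one]; field_simp
      _ ≤ _ := by
          gcongr
          linarith
  · -- imbalanced
    have hr : r0 ≤ Real.exp (-nuM * s) := by
      rw [hr0d, div_le_iff₀ (by positivity)]
      have := mul_le_mul hy1Y hbal.le hy2.le hY0.le
      linarith
    have hkey := imbal_pow hε hρ1 hr0 hr hlo hH (show 0 ≤ s by linarith) hκp.le (min_le_right _ _)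
    calc 4 / Y * E ≤ 4 / Y * (Cb * (r0 ^ (1 / 2 - ε) * Y ^ (1 - 2 * ε)) * N) :=
          mul_le_mul_of_nonneg_left hEb (by positivity)
      _ = 4 * Cb * N * (r0 ^ (1 / 2 - ε) * Y ^ (-(2 * ε))) := by
          rw [show (1 : ℝ) - 2 * ε = 1 + -(2 * ε) by ring, Real.rpow_add hY0, Real.rpow_one]
          field_simp
      _ ≤ 4 * Cb * N * (r0 ^ (1 / 10 : ℝ) * Y ^ kapC ε * Real.sqrt w) :=
          mul_le_mul_of_nonneg_left hkey (by positivity)
      _ = 4 * Cb * Real.sqrt w * N * (r0 ^ (1 / 10 : ℝ) * Y ^ kapC ε) := by ring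
      _ ≤ _ := by
          gcongr
          linarith [Real.sqrt_nonneg (D0 * Cl)]

/-- The coincidences `e^{-ρ s} ≤ η < 1` between a level `t` and a cell `s ≫ t`. -/
theorem cross_range (γ μ c ε : ℝ) (h : Dioph γ μ c) (hε : Small ε) :
    ∃ C κ : ℝ, 0 ≤ C ∧ 0 < κ ∧ ∀ (ψ : ℕ → ℝ) (V W : Finset ℕ) (H t s : ℝ),
      (∀ q, 0 ≤ ψ q) → (∀ q ∈ V ∪ W, 0 < q ∧ 0 < ψ q) →
      (∀ q ∈ V, Real.log q ≤ H ∧ Real.exp (-(2 * t)) ≤ ψ q) →
      (∀ r ∈ W, Real.exp (-(1 + zeta0) * s) ≤ ψ r ∧ ψ r ≤ Real.exp (-s)) →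
      3 ≤ H → t ≤ 2 * H → 16 * t ≤ s → 100 ≤ s →
      pairSum (mu ψ) (kerP γ ψ (fun q r => etaP ψ q r < 1 ∧ Real.exp (-rhoX μ ε * s) ≤ etaP ψ q r)) V W
        ≤ C * Real.sqrt (wgt κ H s) * (msum (mu ψ) (V ∪ W) + msum (mu ψ) (V ∪ W) ^ 2) := by
  obtain ⟨Cc, κ, hCc, hκ, hclass⟩ := cross_class γ μ c ε h hε
  obtain ⟨hk0, hk1⟩ := kapC_mem hε
  obtain ⟨Cg, hCg, hgeom⟩ := midDel_sum _ hk0 hk1
  refine ⟨Cc * 4 ^ kapC ε * Cg, κ, by positivity, hκ, ?_⟩
  intro ψ V W H t s hψ hS hV hW hH htH hts hs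
  obtain ⟨L, hL, hle⟩ := groupCover γ ψ hψ V W (fun q hq => hS q (mem_union_left _ hq))
    (fun q hq => hS q (mem_union_right _ hq))
    (fun q r => etaP ψ q r < 1 ∧ Real.exp (-rhoX μ ε * s) ≤ etaP ψ q r)
  set B := Cc * Real.sqrt (wgt κ H s) * (msum (mu ψ) (V ∪ W) + msum (mu ψ) (V ∪ W) ^ 2) with hB
  have hB0 : 0 ≤ B := by
    have : 0 ≤ msum (mu ψ) (V ∪ W) := sum_nonneg fun q _ => mu_nonneg' hψ q
    positivity
  have h4 : (2 : ℝ) ^ ((2 : ℤ) : ℝ) = 4 := by norm_num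
  refine hle.trans ?_
  calc _ ≤ ∑ l ∈ L, B * 4 ^ kapC ε * midDel (kapC ε)
        ((2 : ℝ) ^ ((l.1 : ℝ) - ((2 : ℤ) : ℝ))) ((2 : ℝ) ^ ((l.2 : ℝ) - ((2 : ℤ) : ℝ))) := by
        refine sum_le_sum fun l hl => ?_
        obtain ⟨q, -, r, -, ⟨hη1, hηlo⟩, hηY, hY4⟩ := hL l hl
        rw [midDel_shift, h4]
        set y1 := (2 : ℝ) ^ (l.1 : ℝ) with hy1d
        set y2 := (2 : ℝ) ^ (l.2 : ℝ) with hy2d
        set Y := 2 * max y1 y2 with hY
        have hy1 : 0 < y1 := by positivity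
        have hy2 : 0 < y2 := by positivity
        have hY0 : 0 < Y := by positivity
        have hY4' : Y ≤ 4 := by linarith
        refine (hclass ψ V W H t s y1 y2 Y hψ hS hV hW hH htH hts hs hy1 hy2 hY hY4'
          (hηlo.trans hηY)).trans (le_of_eq ?_)
        rw [abs_of_nonpos (Real.log_nonpos (by positivity) ((div_le_one (by norm_num)).2 hY4')),
          neg_mul_neg, mul_comm (kapC ε) (Real.log (Y / 4)),
          ← Real.rpow_def_of_pos (by positivity), Real.div_rpow hY0.le (by norm_num), hB]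
        field_simp
    _ ≤ B * 4 ^ kapC ε * Cg := by
        rw [← mul_sum]
        exact mul_le_mul_of_nonneg_left (hgeom L 2) (by positivity)
    _ = _ := by rw [hB]; ring

end Vale.Agent.P028M
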