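import Vale.Agent.P028M.Cells
import Vale.Agent.P028A.Pos
import Vale.Agent.P028.Main

/-! P028M module MAIN: Q1 for every non-Liouville shift when `ψ q ≤ (log q) ^ (-θ)`, whatever the levels. -/

namespace Vale.Agent.P028M

open Finset MeasureTheory Filter Topology
open Vale.Agent.P028
open Vale.Agent.P028.MainAux (cls scale cls_spec exists_block exists_residue sq_integral one_le_scale
  pairs_bound)
open Vale.Agent.P028X (mu_nonneg_X slice slice_spec slice_far Dioph)

/-- Q1 with no extra divergence below any negative power of `log q`. -/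
theorem weak_inhom_DS_mixed (γ μ c θ : ℝ) (hγ : Dioph γ μ c) (hθ : 0 < θ) (ψ : ℕ → ℝ)
    (hψ : ∀ q, 0 ≤ ψ q)
    (hdiv : ¬ Summable ({q : ℕ | ψ q ≤ Real.log q ^ (-θ)}.indicator (mu ψ))) :
    ∀ᵐ x : ℝ, {q : ℕ | 0 < q ∧ distInt ((q : ℝ) * x - γ) < ψ q}.Infinite := by
  classical
  obtain ⟨C1, hC1, hslice⟩ := slice_moment γ μ c (θ / 4) hγ (by linarith)
  obtain ⟨C2, q0, hcross⟩ := cross_bound
  obtain ⟨C3, hfirst⟩ := integral_fq_interval
  obtain ⟨C4, hdivb⟩ := card_divisors_le (1 / 4) (by norm_num)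
  have hz : (1 : ℝ) < 1 + zeta0 := by norm_num [zeta0]
  have hcop : IsCoprime (1 : ℤ) ((0 : ℕ) : ℤ) := isCoprime_one_left
  obtain ⟨N, hN⟩ := pow_unbounded_of_one_lt (16 : ℝ) hz
  obtain ⟨q1, hq1⟩ := eventually_atTop.1 ((eventually_ge_atTop (max 3 q0)).and
    ((Real.tendsto_log_atTop.comp (Real.tendsto_log_atTop.comp
      tendsto_natCast_atTop_atTop)).eventually_ge_atTop (3 + 202 / θ)))
  have hμ0 : ∀ q, 0 ≤ mu ψ q := mu_nonneg_X hψ
  set S0 : Set ℕ := {q : ℕ | ψ q ≤ Real.log q ^ (-θ)} with hS0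
  have h1 := P028A.not_summable_good ψ hψ (Set.indicator_nonneg fun q _ => hμ0 q)
    (Set.indicator_le_self' fun q _ => hμ0 q) hdiv q1
  rw [Set.indicator_indicator] at h1
  obtain ⟨i, hi⟩ := exists_residue (mu ψ) _ h1 slice 3 (by norm_num)
  obtain ⟨i', hi'⟩ := exists_residue (mu ψ) _ hi (cls ψ) (N + 1) N.succ_pos
  set P : Set ℕ := {q | q ∈ {q | q ∈ MainAux.Good ψ q1 ∩ S0 ∧ slice q % 3 = i} ∧
    cls ψ q % (N + 1) = i'} with hP
  choose T hT hTsum using exists_block (mu ψ) P hμ0 hi'
  have hTP : ∀ k, ∀ q ∈ T k, q ∈ P ∧ k ≤ q := hT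
  have hgood : ∀ q ∈ P, 3 ≤ q ∧ 0 < ψ q ∧ ψ q ≤ 1 / 2 ∧ q0 ≤ q ∧ 1 ≤ Real.log q ∧
      1 ≤ -Real.log (ψ q) ∧ -Real.log (ψ q) ≤ 2 * Real.log q ∧
      θ / 4 * Real.log (8 * (8 : ℝ) ^ slice q) ≤ scale (cls ψ q) ∧ 100 ≤ scale (cls ψ q) := by
    rintro q ⟨⟨⟨⟨hqq, hq2⟩, hqS⟩, -⟩, -⟩
    obtain ⟨hq3, hll⟩ := hq1 q hqq
    have h3 : 3 ≤ q := (le_max_left _ _).trans hq3
    have hqR : (3 : ℝ) ≤ q := by exact_mod_cast h3
    have hp : 0 < ψ q := lt_of_lt_of_le (by positivity) hq2
    have hlq : 1 ≤ Real.log q := P028X.one_le_log_three.trans (Real.log_le_log (by norm_num) hqR)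
    simp only [Function.comp_apply] at hll
    set ll := Real.log (Real.log q) with hlld
    have hl := Real.log_le_log hp hqS
    rw [Real.log_rpow (by linarith), ← hlld] at hl
    have hθl : 3 * θ + 202 ≤ θ * ll := by
      calc 3 * θ + 202 = θ * (3 + 202 / θ) := by field_simp
        _ ≤ _ := mul_le_mul_of_nonneg_left hll hθ.le
    have hL : 1 ≤ -Real.log (ψ q) := by linarith
    have hl2 := Real.log_le_log (by positivity) hq2
    rw [Real.log_inv, Real.log_pow] at hl2
    push_cast at hl2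
    obtain ⟨hlo, hhi⟩ := slice_spec q hlq
    have hs2 : (1 + zeta0) * scale (cls ψ q) ≤ 2 * scale (cls ψ q) :=
      mul_le_mul_of_nonneg_right (by norm_num [zeta0]) (le_trans zero_le_one (one_le_scale _))
    have hcs := (cls_spec ψ q hL).2
    have h8 : Real.log (8 * (8 : ℝ) ^ slice q) ≤ 2 * ll := by
      rw [Real.log_mul (by norm_num) (by positivity)]
      have e1 : Real.log ((8 : ℝ) ^ slice q) ≤ ll := Real.log_le_log (by positivity) hlo
      have e2 : Real.log 8 ≤ 3 := by
        rw [show (8 : ℝ) = 2 ^ 3 by norm_num, Real.log_pow]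
        have := Real.log_two_lt_d9
        push_cast
        linarith
      linarith [div_pos (by norm_num : (0 : ℝ) < 202) hθ]
    refine ⟨h3, hp, ?_, (le_max_right _ _).trans hq3, hlq, hL, by linarith, ?_, by linarith⟩
    · refine ((Real.log_le_iff_le_exp hp).1 (show Real.log (ψ q) ≤ -1 by linarith)).trans ?_
      rw [Real.exp_neg, one_div]
      exact inv_anti₀ two_pos (by linarith [Real.add_one_le_exp (1 : ℝ)])
    · have := mul_le_mul_of_nonneg_left h8 (show 0 ≤ θ / 4 by linarith)
      linarith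
  set f : ℕ → ℝ → ℝ := fun q => fq γ ψ 1 0 q with hf
  have hfn : ∀ q x, 0 ≤ f q x := fun q x => fq_nonneg γ ψ _ _ q x
  set M : ℕ → ℝ := fun k => ∑ q ∈ T k, mu ψ q with hMdef
  have hM : ∀ k : ℕ, (k : ℝ) + 1 ≤ M k := hTsum
  have hMη : ∀ k, (1 : ℝ) ≤ M k := fun k =>
    le_trans (le_add_of_nonneg_left (Nat.cast_nonneg k)) (hM k)
  set I := fun q r => ∫ x in Set.Ico (0 : ℝ) 1, f q x * f r x with hI
  have hX : ∀ q ∈ P, ∀ r ∈ P, slice q ≠ slice r → I q r ≤ max C2 0 * mu ψ q * mu ψ r := by
    have main : ∀ q ∈ P, ∀ r ∈ P, slice q < slice r → I q r ≤ max C2 0 * mu ψ q * mu ψ r := by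
      intro q hq r hr hlt
      obtain ⟨h3, hp, hh, hq0, hlq, -⟩ := hgood q hq
      obtain ⟨h3', hp', hh', -, hlr, -⟩ := hgood r hr
      have h8 : q ^ 8 ≤ r := slice_far (by omega) (by omega) hlq hlr (by
        have h1 := hq.1.2
        have h2 := hr.1.2
        omega)
      exact (hcross γ ψ 1 1 0 0 q r hcop hcop hq0 (by omega) h8 hq.1.1.1.2 hh (hψ r) hh').trans
        (mul_le_mul_of_nonneg_right (mul_le_mul_of_nonneg_right (le_max_left C2 0) (hμ0 q)) (hμ0 r))
    intro q hq r hr hne
    rcases lt_or_gt_of_ne hne with h | h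
    · exact main q hq r hr h
    · have e : I q r = I r q := by simp only [hI, mul_comm]
      rw [e]
      refine (main r hr q hq h).trans_eq ?_
      ring
  set Tot := 2 * C1 + max C2 0 with hTot
  have hsq : ∀ k, ∫ x in Set.Ico (0 : ℝ) 1, (∑ q ∈ T k, f q x) ^ 2 ≤ Tot * M k ^ 2 := by
    intro k
    rw [sq_integral γ ψ (fun _ => ((1 : ℤ), 0)) (T k)]
    refine (pairs_bound (T k) slice (mu ψ) I C1 (max C2 0) hμ0 hC1 (le_max_right _ _) ?_
      fun q hq r hr hne => hX q (hTP k q hq).1 r (hTP k r hr).1 hne).trans ?_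
    · intro j hj
      set S := (T k).filter (fun q => P028X.slice q = j) with hS
      have hSm : ∀ q ∈ S, q ∈ P ∧ slice q = j := fun q hq =>
        ⟨(hTP k q (mem_filter.1 hq).1).1, (mem_filter.1 hq).2⟩
      refine le_trans (le_of_eq (sq_integral γ ψ (fun _ => ((1 : ℤ), 0)) S).symm) ?_
      refine hslice ψ S (8 * (8 : ℝ) ^ j) hψ ?_ (fun q hq => ?_) fun q hq r hr hlt => ?_
      · linarith [one_le_pow₀ (a := (8 : ℝ)) (n := j) (by norm_num)]
      · obtain ⟨hqP, rfl⟩ := hSm q hq
        obtain ⟨h3, hp, -, -, hlq, hL, hL2, hlo, h100⟩ := hgood q hqP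
        have := (slice_spec q hlq).2
        exact ⟨by omega, hp, hL, this, by linarith, hlo, h100⟩
      · have e1 := (hSm q hq).1.2
        have e2 := (hSm r hr).1.2
        have hmod : cls ψ q ≡ cls ψ r [MOD N + 1] := by rw [Nat.ModEq, e1, e2]
        have := Nat.le_of_dvd (by omega) ((Nat.modEq_iff_dvd' hlt.le).1 hmod)
        refine le_trans (mul_le_mul_of_nonneg_right hN.le (le_trans zero_le_one (one_le_scale _))) ?_
        rw [scale, scale, ← pow_add]
        exact pow_le_pow_right₀ hz.le (by omega)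
    · have h1 : M k ≤ M k ^ 2 := by
        rw [sq]; exact le_mul_of_one_le_left (by linarith [hMη k]) (hMη k)
      have h2 := mul_le_mul_of_nonneg_left h1 hC1
      rw [hTot]
      simp only [hMdef] at h2 ⊢
      linarith
  set F : ℕ → ℝ → ℝ := fun k x => (∑ q ∈ T k, f q x) / (2 * M k) with hF
  have hMpos : ∀ k, 0 < M k := fun k => one_pos.trans_le (hMη k)
  have hfm : ∀ q, Measurable (f q) := fun q => fq_measurable γ ψ 1 0 q
  refine full_measure_of_blocks γ ψ F (Tot / 4)
    (fun k => (Finset.measurable_sum _ fun q _ => hfm q).div_const _)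
    (fun k x => div_nonneg (sum_nonneg fun q _ => hfn q x) (by linarith [hMpos k]))
    (fun k => ⟨((T k).card : ℝ) / (2 * M k), fun x => ?_⟩) ?_ ?_ ?_
  · refine div_le_div_of_nonneg_right ?_ (by linarith [hMpos k])
    calc ∑ q ∈ T k, f q x ≤ ∑ q ∈ T k, (1 : ℝ) := sum_le_sum fun q _ => fq_le_one γ ψ 1 0 q x
      _ = ((T k).card : ℝ) := by simp
  · intro k x hne
    obtain ⟨q, hq, hq'⟩ := exists_ne_zero_of_sum_ne_zero (left_ne_zero_of_mul hne)
    obtain ⟨hqP, hkq⟩ := hTP k q hq
    exact ⟨q, hkq, by have := (hgood q hqP).1; omega, fq_ne_zero γ ψ _ _ q x hq'⟩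
  · intro k
    have hpos' := hMpos k
    simp only [hF, div_pow]
    rw [integral_div, div_le_iff₀ (by positivity)]
    exact (hsq k).trans_eq (by ring)
  · intro a b ha hab' hb'
    rw [← tendsto_sub_nhds_zero_iff]
    set C5 := max C3 0 * max C4 0 ^ 2 * 2 with hC5
    refine squeeze_zero_norm (a := fun k : ℕ => C5 / ((k : ℝ) + 1) ^ (1 / 2 : ℝ)) (fun k => ?_) ?_
    · have hpos' := hMpos k
      have hfi : ∀ q ∈ T k, IntegrableOn (f q) (Set.Ioc a b) := fun q _ =>
        IntegrableOn.of_bound (by simp [Real.volume_Ioc]) (hfm q).aestronglyMeasurable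
          1 (Eventually.of_forall fun x => by
            rw [Real.norm_of_nonneg (hfn q x)]; exact fq_le_one γ ψ 1 0 q x)
      have e : (∫ x in Set.Ioc a b, F k x) - (b - a)
          = (∑ q ∈ T k, ((∫ x in Set.Ioc a b, f q x) - (b - a) * (2 * mu ψ q))) / (2 * M k) := by
        simp only [hF]
        rw [integral_div, integral_finsetSum _ hfi, sum_sub_distrib, ← mul_sum, ← mul_sum]
        simp only [hMdef] at hpos' ⊢
        field_simp
      rw [Real.norm_eq_abs, e, abs_div, abs_of_pos (by linarith : (0 : ℝ) < 2 * M k),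
        div_le_iff₀ (by linarith)]
      refine (abs_sum_le_sum_abs _ _).trans ?_
      calc ∑ q ∈ T k, |(∫ x in Set.Ioc a b, f q x) - (b - a) * (2 * mu ψ q)|
          ≤ ∑ q ∈ T k, 2 * (C5 / ((k : ℝ) + 1) ^ (1 / 2 : ℝ)) * mu ψ q := by
            refine sum_le_sum fun q hq => ?_
            obtain ⟨hqP, hkq⟩ := hTP k q hq
            obtain ⟨h3, -⟩ := hgood q hqP
            have hqR : (0 : ℝ) < q := by exact_mod_cast (by omega : 0 < q)
            refine (hfirst γ ψ 1 0 q a b hcop (by omega) (hψ q) (hgood q hqP).2.2.1 ha hab'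
              hb').trans ?_
            have hτ : (q.divisors.card : ℝ) ≤ max C4 0 * (q : ℝ) ^ (1 / 4 : ℝ) :=
              (hdivb q (by omega)).trans
                (mul_le_mul_of_nonneg_right (le_max_left _ _) (by positivity))
            have hμ : ψ q ≤ (q.divisors.card : ℝ) * mu ψ q := by
              have hth : 1 ≤ (q.divisors.card : ℝ) * th q := by
                refine le_trans ?_ (mul_le_mul_of_nonneg_right
                  (Ph_le_card_divisors q (by omega)) (th_nonneg q))
                have hne : (q.totient : ℝ) ≠ 0 := by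
                  exact_mod_cast (Nat.totient_pos.2 (by omega : 0 < q)).ne'
                rw [Ph, th]
                field_simp
                rfl
              calc ψ q ≤ (q.divisors.card : ℝ) * th q * ψ q :=
                    le_mul_of_one_le_left (hψ q) hth
                _ = _ := by rw [mu]; ring
            have hμq := hμ0 q
            have hk : ((k : ℝ) + 1) ^ (1 / 2 : ℝ) ≤ 2 * (q : ℝ) ^ (1 / 2 : ℝ) := by
              calc ((k : ℝ) + 1) ^ (1 / 2 : ℝ) ≤ ((4 : ℝ) * q) ^ (1 / 2 : ℝ) := by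
                    refine Real.rpow_le_rpow (by positivity) ?_ (by norm_num)
                    have : (k : ℝ) ≤ q := by exact_mod_cast hkq
                    have : (1 : ℝ) ≤ q := by exact_mod_cast (by omega : 1 ≤ q)
                    linarith
                _ = _ := by
                    rw [Real.mul_rpow (by norm_num) hqR.le, show (4 : ℝ) = 2 ^ (2 : ℝ) by norm_num,
                      ← Real.rpow_mul (by norm_num)]
                    norm_num
            calc C3 * ψ q * (q.divisors.card : ℝ) / q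
                ≤ max C3 0 * ((max C4 0 * (q : ℝ) ^ (1 / 4 : ℝ)) * mu ψ q)
                    * (max C4 0 * (q : ℝ) ^ (1 / 4 : ℝ)) / q := by
                  refine div_le_div_of_nonneg_right ?_ hqR.le
                  exact mul_le_mul (mul_le_mul (le_max_left _ _)
                    (hμ.trans (mul_le_mul_of_nonneg_right hτ hμq)) (hψ q) (le_max_right _ _))
                    hτ (Nat.cast_nonneg _) (by positivity)
              _ = max C3 0 * max C4 0 ^ 2 * mu ψ q / (q : ℝ) ^ (1 / 2 : ℝ) := by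
                  have e2 : (q : ℝ) ^ (1 / 4 : ℝ) * (q : ℝ) ^ (1 / 4 : ℝ)
                      = (q : ℝ) ^ (1 / 2 : ℝ) := by
                    rw [← Real.rpow_add hqR]; norm_num
                  have e3 : (q : ℝ) ^ (1 / 2 : ℝ) * (q : ℝ) ^ (1 / 2 : ℝ) = q := by
                    rw [← Real.rpow_add hqR]; norm_num
                  rw [eq_div_iff (by positivity), div_mul_eq_mul_div, div_eq_iff hqR.ne']
                  linear_combination (max C3 0 * max C4 0 ^ 2 * mu ψ q) *
                    ((q : ℝ) ^ (1 / 2 : ℝ) * e2 + e3)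
              _ ≤ 2 * (C5 / ((k : ℝ) + 1) ^ (1 / 2 : ℝ)) * mu ψ q := by
                  rw [hC5, div_le_iff₀ (by positivity), mul_comm (2 : ℝ), div_mul_eq_mul_div,
                    div_mul_eq_mul_div, div_mul_eq_mul_div, le_div_iff₀ (by positivity)]
                  have := mul_le_mul_of_nonneg_left hk
                    (show 0 ≤ max C3 0 * max C4 0 ^ 2 * mu ψ q by positivity)
                  have h0 : 0 ≤ max C3 0 * max C4 0 ^ 2 * mu ψ q * (q : ℝ) ^ (1 / 2 : ℝ) := by
                    positivity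
                  linarith
        _ = _ := by rw [← mul_sum]; simp only [hMdef]; ring
    · exact tendsto_const_nhds.div_atTop ((tendsto_rpow_atTop (by norm_num)).comp
        (tendsto_natCast_atTop_atTop.atTop_add tendsto_const_nhds))


end Vale.Agent.P028M
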